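import Vale.Agent.P088.R2.H835.INF.H1P
import Vale.Agent.P088.R2.H493.INF.RowS

/-!
# P088, stage 3, leaf iH: row H1, the zone inequality
-/

open MeasureTheory Set Filter
open scoped ContDiff Topology

noncomputable section

namespace Vale.Agent.P088.R2.H835.INF

open Vale.Agent.P088.LR Vale.Agent.P088.HY Vale.Agent.P088.R2.H475 Vale.Agent.P088.R2.H31.EP
open Vale.Agent.P088.R2.H269.INF Vale.Agent.P088.R2.H961.GW Vale.Agent.P088.R2.H551.E
open Vale.Agent.P088.R2.H644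
open Vale.Agent.P088.R2.H168.INF
open Vale.Agent.P088.R2.H380.INF (gm)

variable {n : ℕ} {q : Cst} {d : Pk n}

theorem cp_of {f : ℝ → ℝ} {u : VV n → ℝ} (hf : ContDiff ℝ ∞ f) (hu : ContDiff ℝ ∞ u) :
    Ch.Cp univ u f (deriv f) (deriv (deriv f)) := by
  have s1 := (contDiff_infty_iff_deriv.1 hf).2
  exact Ch.Cp.of hu.contDiffOn hf s1 (fun t => (hf.differentiable (by simp) t).hasDerivAt)
    fun t => (s1.differentiable (by simp) t).hasDerivAt

section pt

variable (hq : Hn n q) (h : PkOk q d) {z : VV n} (hz : z ∈ SH1 q d) (hs : StB q d z)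

include hq h hz

/-- The derivatives of the multiplier in the slot `x`. -/
theorem Dx_lm (i : Fin n) : d.sx.D i (lmH q d) z =
    1 / 100 * (q.σ / q.R) * (deriv (deriv d.Φ) (d.l z.1 + d.l z.2) + deriv (deriv d.Θ) (d.l z.1)) *
      d.sx.D i (fun z : VV n => d.l z.1) z := by
  have hU : IsOpen (univ : Set (VV n)) := isOpen_univ
  have hz' : z ∈ (univ : Set (VV n)) := mem_univ z
  have g : lmH q d =ᶠ[𝓝 z] fun w => 1 / 100 * (q.σ / q.R) *
      (deriv d.Φ (d.l w.1 + d.l w.2) + deriv d.Θ (d.l w.1)) := by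
    filter_upwards [(X_germ hq h hz).1] with w a
    unfold lmH
    rw [a]
  have c1 := cp_of (n := n) h.Φ's ((lx_sm h).add (ly_sm h))
  have c2 := cp_of (n := n) (Θ's h) (lx_sm h)
  have e1 := Ch.D_comp (σ := d.sx) hU c1 i hz'
  have e2 := Ch.D_comp (σ := d.sx) hU c2 i hz'
  have e3 : d.sx.D i (fun z : VV n => d.l z.2) z = 0 :=
    Dx_snd (h.lev.sm.differentiable (by simp) _) i
  have e4 := D_add d.sx hU (lx_sm h).contDiffOn (ly_sm h).contDiffOn i hz'
  rw [D_congr_nhds d.sx g i, D_cmul d.sx hU _ (c1.s0.add c2.s0) i hz',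
    D_add d.sx hU c1.s0 c2.s0 i hz', e1, e2, e4, e3]
  ring

/-- The derivatives of the multiplier in the slot `y`. -/
theorem Dy_mu (i : Fin n) : d.sy.D i (muH q d) z =
    1 / 100 * (q.σ / q.R) * (deriv (deriv d.Φ) (d.l z.1 + d.l z.2) + deriv (deriv d.Θ) (d.l z.2)) *
      d.sy.D i (fun z : VV n => d.l z.2) z := by
  have hU : IsOpen (univ : Set (VV n)) := isOpen_univ
  have hz' : z ∈ (univ : Set (VV n)) := mem_univ z
  have g : muH q d =ᶠ[𝓝 z] fun w => 1 / 100 * (q.σ / q.R) *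
      (deriv d.Φ (d.l w.1 + d.l w.2) + deriv d.Θ (d.l w.2)) := by
    filter_upwards [(X_germ hq h hz).2] with w a
    unfold muH
    rw [a]
  have c1 := cp_of (n := n) h.Φ's ((lx_sm h).add (ly_sm h))
  have c2 := cp_of (n := n) (Θ's h) (ly_sm h)
  have e1 := Ch.D_comp (σ := d.sy) hU c1 i hz'
  have e2 := Ch.D_comp (σ := d.sy) hU c2 i hz'
  have e3 : d.sy.D i (fun z : VV n => d.l z.1) z = 0 :=
    Dy_fst (h.lev.sm.differentiable (by simp) _) i
  have e4 := D_add d.sy hU (lx_sm h).contDiffOn (ly_sm h).contDiffOn i hz'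
  rw [D_congr_nhds d.sy g i, D_cmul d.sy hU _ (c1.s0.add c2.s0) i hz',
    D_add d.sy hU c1.s0 c2.s0 i hz', e1, e2, e4, e3]
  ring

include hs

/-- The final weight, slot `x`. -/
theorem w_x : lmH q d z * d.sx.F (d.W q) z / 2 + lmH q d z ^ 2 / 4 ≤
    lmH q d z * d.sx.F (d.W q) z + 2 * (lmH q d z * d.sx.Λ (d.W q) z +
      d.sx.Γ (lmH q d) (d.W q) z) - Ce n q * hX q d z ^ 2 := by
  have hR := hq.inf.R0
  have hσ := hq.inf.σ0
  have β0 : 0 < q.σ / q.R := div_pos hσ hR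
  have hO := SH1_Om hq hz
  have hu := hz.2.2
  have g := W_germ hq h hz
  have eX := (X_germ hq h hz).1.self_of_nhds
  have hN := hq.M1.trans (h.N_ge (d.l z.1 + d.l z.2))
  have hT := h.Θd0 hR (d.l z.1)
  have F := Fx_Wf hq h hO hu hs
  have b5 := sb5_f hq h hO hu hs
  have eF : d.sx.F (d.W q) z = d.sx.F (Wf q d) z := (Eqs.of g).F.eq_of_nhds
  have eL : d.sx.Λ (d.W q) z = d.sx.Λ (Wf q d) z := (Eqs.of g).L.eq_of_nhds
  have eG : d.sx.Γ (fun z : VV n => d.l z.1) (d.W q) z =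
      d.sx.Γ (fun z : VV n => d.l z.1) (Wf q d) z :=
    ((Eqs.of (σ := d.sx) (Filter.EventuallyEq.refl _ _)).G (Eqs.of g)).eq_of_nhds
  have eG2 := G_of_D' (W := d.W q) (Dx_lm hq h hz)
  have hG : 0 ≤ d.sx.Γ (lmH q d) (d.W q) z := by
    rw [eG2, eG]
    exact mul_nonneg (mul_nonneg (by positivity) (add_nonneg (h.top.k0 _).le (h.Θcv hR _))) F.2
  have hL : |d.sx.Λ (d.W q) z| ≤ CS n * Dq n q * hX q d z := by
    rw [eL, eX]
    have k := (gX_bd hq h hO hu hs (j := 1) (by norm_num)).2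
    have := mul_le_mul_of_nonneg_left k (by linarith [CS_pos n] : 0 ≤ CS n)
    have b := b5.L1
    have e : gX q d z 1 = gm q.R (fun z : VV n => (d.Φ (d.l z.1 + d.l z.2) + st2 q d z) +
      d.Θ (d.l z.1)) 1 z := rfl
    rw [← e] at this
    refine b.trans (this.trans (le_of_eq ?_))
    ring
  refine fin1 β0 rfl ?_ ?_ hL hG ?_
  · rw [eX]; linarith
  · rw [eF, eX]; exact F.1
  · have := fin_k hq h hO hu (nx := hX q d z) (by rw [eX]; linarith)
    exact this

/-- The final weight, slot `y`. -/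
theorem w_y : muH q d z * d.sy.F (d.W q) z / 2 + muH q d z ^ 2 / 4 ≤
    muH q d z * d.sy.F (d.W q) z + 2 * (muH q d z * d.sy.Λ (d.W q) z +
      d.sy.Γ (muH q d) (d.W q) z) - Ce n q * hY q d z ^ 2 := by
  have hR := hq.inf.R0
  have hσ := hq.inf.σ0
  have β0 : 0 < q.σ / q.R := div_pos hσ hR
  have hO := SH1_Om hq hz
  have hu := hz.2.2
  have g := W_germ hq h hz
  have eX := (X_germ hq h hz).2.self_of_nhds
  have hN := hq.M1.trans (h.N_ge (d.l z.1 + d.l z.2))
  have hT := h.Θd0 hR (d.l z.2)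
  have F := Fy_Wf hq h hO hu hs
  have b5 := sb5_f hq h hO hu hs
  have eF : d.sy.F (d.W q) z = d.sy.F (Wf q d) z := (Eqs.of g).F.eq_of_nhds
  have eL : d.sy.Λ (d.W q) z = d.sy.Λ (Wf q d) z := (Eqs.of g).L.eq_of_nhds
  have eG : d.sy.Γ (fun z : VV n => d.l z.2) (d.W q) z =
      d.sy.Γ (fun z : VV n => d.l z.2) (Wf q d) z :=
    ((Eqs.of (σ := d.sy) (Filter.EventuallyEq.refl _ _)).G (Eqs.of g)).eq_of_nhds
  have eG2 := G_of_D' (W := d.W q) (Dy_mu hq h hz)
  have hG : 0 ≤ d.sy.Γ (muH q d) (d.W q) z := by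
    rw [eG2, eG]
    exact mul_nonneg (mul_nonneg (by positivity) (add_nonneg (h.top.k0 _).le (h.Θcv hR _))) F.2
  have hL : |d.sy.Λ (d.W q) z| ≤ CS n * Dq n q * hY q d z := by
    rw [eL, eX]
    have k := (gY_bd hq h hO hu hs (j := 1) (by norm_num)).2
    have := mul_le_mul_of_nonneg_left k (by linarith [CS_pos n] : 0 ≤ CS n)
    have b := b5.L1'
    have e : gY q d z 1 = gm q.R (fun z : VV n => (d.Φ (d.l z.1 + d.l z.2) + st2 q d z) +
      d.Θ (d.l z.2)) 1 z := rfl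
    rw [← e] at this
    refine b.trans (this.trans (le_of_eq ?_))
    ring
  refine fin1 β0 rfl ?_ ?_ hL hG ?_
  · rw [eX]; linarith
  · rw [eF, eX]; exact F.1
  · have := fin_k hq h hO hu (nx := hY q d z) (by rw [eX]; linarith)
    exact this

/-- The star form. -/
theorem star (A B : Fin n → ℝ) (x y : ℝ) :
    4 * (lmH q d z * ss d.sx A z + muH q d z * ss d.sy B z) -
      (Ce n q * hX q d z ^ 2 * x ^ 2 + Ce n q * hY q d z ^ 2 * y ^ 2) ≤
    8 * Ch.TH d.sx d.sy (d.W q) z A B + H747.S.qf d.sx d.sy 0 0 (d.W q) z A B x y := by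
  have hR := hq.inf.R0
  have hσ := hq.inf.σ0
  have β0 : 0 < q.σ / q.R := div_pos hσ hR
  have hO := SH1_Om hq hz
  have hu := hz.2.2
  have g := W_germ hq h hz
  have eX := (X_germ hq h hz).1.self_of_nhds
  have eY := (X_germ hq h hz).2.self_of_nhds
  have P := p1_of hq h hO hu hs
  have he : q.ε * n ≤ 1 / 2 := by linarith [hq.εn, mul_comm (n : ℝ) q.ε]
  have sx := P.m₁.s0 (pj_x d.s₁) hq.ε0 he z A
  have sy := P.m₂.s0 (pj_y d.s₂) hq.ε0 he z B
  have Q := P.pt le_rfl le_rfl A B x y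
  rw [← h.lev.lit] at Q
  have e1 : Ch.TH d.sx d.sy (d.W q) z A B = Ch.TH d.sx d.sy (Wf q d) z A B := TH_germ g A B
  have e2 := qf_germ (σ := d.sx) (τ := d.sy) g A B x y
  rw [e1, e2]
  refine le_trans ?_ Q
  have hN := hq.M1.trans (h.N_ge (d.l z.1 + d.l z.2))
  have hTx := h.Θd0 hR (d.l z.1)
  have hTy := h.Θd0 hR (d.l z.2)
  have kx : lmH q d z ≤ q.σ / q.R * hX q d z := by
    have : 0 ≤ q.σ / q.R * hX q d z := by
      rw [eX]
      exact mul_nonneg β0.le (by linarith)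
    unfold lmH
    linarith
  have ky : muH q d z ≤ q.σ / q.R * hY q d z := by
    have : 0 ≤ q.σ / q.R * hY q d z := by
      rw [eY]
      exact mul_nonneg β0.le (by linarith)
    unfold muH
    linarith
  have k1 := mul_le_mul_of_nonneg_right kx sx
  have k2 := mul_le_mul_of_nonneg_right ky sy
  rw [eX] at k1
  rw [eY] at k2
  rw [eX, eY]
  have e3 : Ce n q = (256 * n ^ 3 * CS n ^ 2 * Dq n q * (q.R / q.σ) + 20 * CS n) * Dq n q ^ 2 := rfl
  rw [e3]
  have e4 : ss d.sx A z = ss (slx (fun _ => (1 : ℝ)) d.s₁) A z := rfl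
  have e5 : ss d.sy B z = ss (sly (fun _ => (1 : ℝ)) d.s₂) B z := rfl
  rw [e4, e5]
  linarith

end pt

section zone

variable (hq : Hn n q) (h : PkOk q d)

include hq h

theorem lm_nn (z : VV n) : 0 ≤ lmH q d z := by
  have hR := hq.inf.R0
  have hσ := hq.inf.σ0
  have h1 := hq.M1.trans (h.N_ge (d.l (d.P z.1) + d.l (d.P z.2)))
  have h2 := h.Θd0 hR (d.l z.1)
  unfold lmH hX hN
  have : 0 ≤ deriv d.Φ (d.l (d.P z.1) + d.l (d.P z.2)) + deriv d.Θ (d.l z.1) := by linarith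
  positivity

theorem mu_nn (z : VV n) : 0 ≤ muH q d z := by
  have hR := hq.inf.R0
  have hσ := hq.inf.σ0
  have h1 := hq.M1.trans (h.N_ge (d.l (d.P z.1) + d.l (d.P z.2)))
  have h2 := h.Θd0 hR (d.l z.2)
  unfold muH hY hN
  have : 0 ≤ deriv d.Φ (d.l (d.P z.1) + d.l (d.P z.2)) + deriv d.Θ (d.l z.2) := by linarith
  positivity

theorem M1_ct {χ : VV n → ℝ} (hχ : ContDiff ℝ ∞ χ) :
    ((M1H q d).sm fun z => χ z ^ 2).Ct univ := by
  have ok : d.sx.Ok univ 1 := okx' hq h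
  have ot : d.sy.Ok univ 1 := oky' hq h
  have hW : Sm univ (d.W q) := (W_sm' hq h).contDiffOn
  have hq2 : Sm univ fun z => χ z ^ 2 := (hχ.pow 2).contDiffOn
  have sl : Sm univ (lmH q d) := (lm_sm h).contDiffOn
  have sm : Sm univ (muH q d) := (mu_sm h).contDiffOn
  exact ⟨hq2.continuousOn.mul continuousOn_const, (hq2.mul (sl.div_const 6)).continuousOn,
    (hq2.mul (sm.div_const 6)).continuousOn, hq2.continuousOn.mul continuousOn_const,
    (hq2.mul (((sl.mul (ok.sF hW)).div_const 2).add ((sl.pow 2).div_const 4))).continuousOn,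
    (hq2.mul (((sm.mul (ot.sF hW)).div_const 2).add ((sm.pow 2).div_const 4))).continuousOn,
    hq2.continuousOn.mul continuousOn_const, hq2.continuousOn.mul continuousOn_const⟩

/-- **The zone inequality of `H1`.** -/
theorem zoneH1 (hst : ∀ z : VV n, d.l z.1 ≤ d.l₀ q + 32 / 10 * q.R →
      d.l z.2 ≤ d.l₀ q + 32 / 10 * q.R → StB q d z)
    {χ : VV n → ℝ} (hχ : ContDiff ℝ ∞ χ) (h0 : ∀ z, z ∉ SH1 q d → χ z = 0) :
    d.Zone q χ ((M1H q d).sm fun z => χ z ^ 2) (C1H χ q d) := by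
  have hR := hq.inf.R0
  have ok : d.sx.Ok univ 1 := okx' hq h
  have ot : d.sy.Ok univ 1 := oky' hq h
  have hW : Sm univ (d.W q) := (W_sm' hq h).contDiffOn
  have hχ' : Sm univ χ := hχ.contDiffOn
  have sl : Sm univ (lmH q d) := (lm_sm h).contDiffOn
  have sm : Sm univ (muH q d) := (mu_sm h).contDiffOn
  have hv : Sm univ (0 : VV n → ℝ) := contDiffOn_const
  have he : q.ε * n ≤ 1 / 2 := by linarith [hq.εn, mul_comm (n : ℝ) q.ε]
  have ce : ContinuousOn (fun z => Ce n q * hX q d z ^ 2) univ :=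
    (continuous_const.mul ((hX_sm h).continuous.pow 2)).continuousOn
  have cr : ContinuousOn (fun z => Ce n q * hY q d z ^ 2) univ :=
    (continuous_const.mul ((hY_sm h).continuous.pow 2)).continuousOn
  have st : ∀ z ∈ SH1 q d, StB q d z := fun z hz =>
    hst z (by linarith [hz.1]) (by linarith [hz.2.1])
  have Z := zone_T (v₁ := 0) (v₂ := 0) (S := SH1 q d) ok ot hv hv hW hχ' h0
    (fun z _ A => (m₁ hq h).lo (pj_x d.s₁) hq.ε0 he z A)
    (fun z _ A => (m₂ hq h).lo (pj_y d.s₂) hq.ε0 he z A) sl sm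
    (fun z _ => lm_nn hq h z) (fun z _ => mu_nn hq h z) ce cr
    (fun z _ hz A B x y => star hq h hz (st z hz) A B x y)
  have ct := cT_ct (χ := χ) ok ot hχ' sl sm
  refine Zone.of ok ot hv hv hW (mT_ct ok ot hW hχ' sl sm ce cr) ct (M1_ct hq h hχ) ct Z
    fun z _ => ?_
  have l0 := lm_nn hq h z
  have m0 := mu_nn hq h z
  have q0 := sq_nonneg (χ z)
  constructor <;> simp only [Q8.add_def, Q8.sm, M1H, C1H, mT, cT, Pi.add_apply, Pi.mul_apply]
  · linarith
  · have := mul_le_mul_of_nonneg_left (by linarith : lmH q d z / 6 ≤ lmH q d z) q0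
    linarith
  · have := mul_le_mul_of_nonneg_left (by linarith : muH q d z / 6 ≤ muH q d z) q0
    linarith
  · simp
  · by_cases hz : z ∈ SH1 q d
    · have := mul_le_mul_of_nonneg_left (w_x hq h hz (st z hz)) q0
      linarith
    · rw [h0 z hz]
      simp
  · by_cases hz : z ∈ SH1 q d
    · have := mul_le_mul_of_nonneg_left (w_y hq h hz (st z hz)) q0
      linarith
    · rw [h0 z hz]
      simp
  · simp
  · simp

end zone

/-- **Row H1.** -/
theorem rowH1 (hn : 1 ≤ n) : RowH1 n := by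
  refine ((ev_Hn hn).and (H493.INF.rowSt n)).mono ?_
  rintro q ⟨hq, hst⟩ d h χ hχ h0
  exact zoneH1 hq h (fun z h1 h2 j hj h4 => hst d h z h1 h2 j hj h4) hχ h0

end Vale.Agent.P088.R2.H835.INF
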