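import Vale.Agent.P088.R2.H835.INF.Pp

/-!
# P088, stage 3, leaf iH: row H1
-/

open MeasureTheory Set Filter
open scoped ContDiff Topology

noncomputable section

namespace Vale.Agent.P088.R2.H835.INF

open Vale.Agent.P088.LR Vale.Agent.P088.HY Vale.Agent.P088.R2.H475 Vale.Agent.P088.R2.H31.EP
open Vale.Agent.P088.R2.H269.INF Vale.Agent.P088.R2.H961.GW Vale.Agent.P088.R2.H551.E
open Vale.Agent.P088.R2.H644
open Vale.Agent.P088.R2.H404.INF (W_ret l₀_eq)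
open Vale.Agent.P088.R2.H168.INF

variable {n : ℕ} {q : Cst} {d : Pk n}

theorem fin1 {β nx CD e F La Ga lam : ℝ} (hβ : 0 < β) (hl : lam = 1 / 100 * β * nx)
    (hx : 0 < nx) (hF : 7 / 8 * nx ^ 2 ≤ F) (hL : |La| ≤ CD * nx) (hG : 0 ≤ Ga)
    (k : β ^ 2 / 40000 + β * CD / 50 + e ≤ 7 / 1600 * β * nx) :
    lam * F / 2 + lam ^ 2 / 4 ≤ lam * F + 2 * (lam * La + Ga) - e * nx ^ 2 := by
  have l0 : 0 < lam := by rw [hl]; positivity
  have h1 : -(lam * (CD * nx)) ≤ lam * La := by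
    have := mul_le_mul_of_nonneg_left (abs_le.1 hL).1 l0.le
    linarith
  have h2 : lam * (7 / 8 * nx ^ 2) ≤ lam * F := mul_le_mul_of_nonneg_left hF l0.le
  have h3 := mul_le_mul_of_nonneg_right k (sq_nonneg nx)
  have h4 : 7 / 1600 * β * nx * nx ^ 2 = lam * (7 / 8 * nx ^ 2) / 2 := by rw [hl]; ring
  have h5 : (β ^ 2 / 40000 + β * CD / 50 + e) * nx ^ 2 =
      lam ^ 2 / 4 + 2 * (lam * (CD * nx)) + e * nx ^ 2 := by rw [hl]; ring
  linarith

theorem G_of_D' {E ι : Type*} [NormedAddCommGroup E] [NormedSpace ℝ E] [Fintype ι]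
    {σ : Sl E ι} {f g W : E → ℝ} {z : E} {k : ℝ} (hf : ∀ i, σ.D i f z = k * σ.D i g z) :
    σ.Γ f W z = k * σ.Γ g W z := by
  unfold Sl.Γ
  rw [Finset.mul_sum]
  refine Finset.sum_congr rfl fun i _ => ?_
  rw [Finset.mul_sum]
  refine Finset.sum_congr rfl fun j _ => ?_
  rw [hf]; ring

section pt

variable (hq : Hn n q) (h : PkOk q d) {z : VV n} (hz : z ∈ Om q d)
  (hu : 2 * d.l₀ q + 91 / 20 * q.R ≤ d.l z.1 + d.l z.2) (hs : StB q d z)

include hq h hz hu hs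

/-- The first derivatives in the slot `x`. -/
theorem Dx_Wf (i : Fin n) : d.sx.D i (Wf q d) z =
    (deriv d.Φ (d.l z.1 + d.l z.2) + deriv d.Θ (d.l z.1)) * wR n q.σ q.R z.1 i +
      d.sx.D i (st2 q d) z := by
  have P := p1_of hq h hz hu hs
  have lit := h.lev.lit
  have hU : IsOpen (univ : Set (VV n)) := isOpen_univ
  have hz' : z ∈ (univ : Set (VV n)) := mem_univ z
  have e1 := Ch.D_comp (σ := d.sx) hU P.cΦ i hz'
  have e2 := Ch.D_comp (σ := d.sx) hU P.cx i hz'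
  have e3 := Ch.D_comp (σ := d.sx) hU P.cy i hz'
  have e4 := Fl_D (pj_x d.s₁) P.m₁ hq.n1 P.h0 P.h1 P.hR P.z₁ i
  have e5 : d.sx.D i (fun z : VV n => levG n q.σ q.R d.kap d.Gs z.2) z = 0 :=
    σL2 P.h0 P.h1 z i
  have e6 := D_add d.sx hU P.cx.su P.cy.su i hz'
  rw [← lit] at e1 e2 e3 e4 e5 e6
  have f1 : d.sx.D i (fun z : VV n => d.l z.1) z = wR n q.σ q.R z.1 i := e4
  unfold Wf
  rw [D_add d.sx hU (((G_sm hq h).add (Tx_sm h)).contDiffOn) (Ty_sm h).contDiffOn i hz',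
    D_add d.sx hU (G_sm hq h).contDiffOn (Tx_sm h).contDiffOn i hz',
    D_add d.sx hU (show ContDiff ℝ ∞ (fun z : VV n => d.Φ (d.l z.1 + d.l z.2)) from
      h.Φs.comp ((lx_sm h).add (ly_sm h))).contDiffOn (st_sm hq h).contDiffOn i hz',
    e1, e2, e3, e6, e5, f1]
  ring

/-- The first derivatives in the slot `y`. -/
theorem Dy_Wf (i : Fin n) : d.sy.D i (Wf q d) z =
    (deriv d.Φ (d.l z.1 + d.l z.2) + deriv d.Θ (d.l z.2)) * wR n q.σ q.R z.2 i +
      d.sy.D i (st2 q d) z := by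
  have P := p1_of hq h hz hu hs
  have lit := h.lev.lit
  have hU : IsOpen (univ : Set (VV n)) := isOpen_univ
  have hz' : z ∈ (univ : Set (VV n)) := mem_univ z
  have e1 := Ch.D_comp (σ := d.sy) hU P.cΦ i hz'
  have e2 := Ch.D_comp (σ := d.sy) hU P.cx i hz'
  have e3 := Ch.D_comp (σ := d.sy) hU P.cy i hz'
  have e4 := Fl_D (pj_y d.s₂) P.m₂ hq.n1 P.h0 P.h1 P.hR P.z₂ i
  have e5 : d.sy.D i (fun z : VV n => levG n q.σ q.R d.kap d.Gs z.1) z = 0 :=
    τL1 P.h0 P.h1 z i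
  have e6 := D_add d.sy hU P.cx.su P.cy.su i hz'
  rw [← lit] at e1 e2 e3 e4 e5 e6
  have f1 : d.sy.D i (fun z : VV n => d.l z.2) z = wR n q.σ q.R z.2 i := e4
  unfold Wf
  rw [D_add d.sy hU (((G_sm hq h).add (Tx_sm h)).contDiffOn) (Ty_sm h).contDiffOn i hz',
    D_add d.sy hU (G_sm hq h).contDiffOn (Tx_sm h).contDiffOn i hz',
    D_add d.sy hU (show ContDiff ℝ ∞ (fun z : VV n => d.Φ (d.l z.1 + d.l z.2)) from
      h.Φs.comp ((lx_sm h).add (ly_sm h))).contDiffOn (st_sm hq h).contDiffOn i hz',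
    e1, e2, e3, e6, e5, f1]
  ring

/-- `16 n C b ≤ N`. -/
theorem cb_le : 16 * (n : ℝ) * (CS n * (4 * Real.exp (8 * (q.R / q.σ)))) ≤
    deriv d.Φ (d.l z.1 + d.l z.2) := by
  have P := p1_of hq h hz hu hs
  have hb := P.bb
  rw [← h.lev.lit] at hb
  have hN := hq.M1.trans (h.N_ge (d.l z.1 + d.l z.2))
  have h1 : q.σ / q.R ≤ 1 := by
    rw [div_le_one hq.inf.R0]
    linarith [hq.inf.σ1, hq.inf.R1]
  have h2 := mul_le_mul_of_nonneg_right h1 (by linarith : 0 ≤ deriv d.Φ (d.l z.1 + d.l z.2))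
  linarith

/-- `|D W|²` and `Γ(l, W)` in the slot `x`. -/
theorem Fx_Wf : 7 / 8 * (deriv d.Φ (d.l z.1 + d.l z.2) + deriv d.Θ (d.l z.1)) ^ 2 ≤
    d.sx.F (Wf q d) z ∧ 0 ≤ d.sx.Γ (fun z => d.l z.1) (Wf q d) z := by
  have P := p1_of hq h hz hu hs
  have hN := hq.M1.trans (h.N_ge (d.l z.1 + d.l z.2))
  have hT := h.Θd0 hq.inf.R0 (d.l z.1)
  have := slot_F (pj_x d.s₁) P.m₁ hq.n1 P.h0 P.h1 P.hR P.z₁ (W := Wf q d) (f := st2 q d)
    (θ := fun _ => 1) (L := fun _ => 0)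
    (nx := deriv d.Φ (d.l z.1 + d.l z.2) + deriv d.Θ (d.l z.1))
    (d := CS n * (4 * Real.exp (8 * (q.R / q.σ))))
    (fun i => Dx_Wf hq h hz hu hs i) P.bf.d1 (by linarith)
    (by linarith [cb_le hq h hz hu hs])
  rw [← h.lev.lit] at this
  exact this

theorem Fy_Wf : 7 / 8 * (deriv d.Φ (d.l z.1 + d.l z.2) + deriv d.Θ (d.l z.2)) ^ 2 ≤
    d.sy.F (Wf q d) z ∧ 0 ≤ d.sy.Γ (fun z => d.l z.2) (Wf q d) z := by
  have P := p1_of hq h hz hu hs
  have hN := hq.M1.trans (h.N_ge (d.l z.1 + d.l z.2))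
  have hT := h.Θd0 hq.inf.R0 (d.l z.2)
  have := slot_F (pj_y d.s₂) P.m₂ hq.n1 P.h0 P.h1 P.hR P.z₂ (W := Wf q d) (f := st2 q d)
    (θ := fun _ => 1) (L := fun _ => 0)
    (nx := deriv d.Φ (d.l z.1 + d.l z.2) + deriv d.Θ (d.l z.2))
    (d := CS n * (4 * Real.exp (8 * (q.R / q.σ))))
    (fun i => Dy_Wf hq h hz hu hs i) P.bf.d1' (by linarith)
    (by linarith [cb_le hq h hz hu hs])
  rw [← h.lev.lit] at this
  exact this

omit hs in
/-- The final numbers. -/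
theorem fin_k {nx : ℝ} (hx : deriv d.Φ (d.l z.1 + d.l z.2) ≤ nx) :
    (q.σ / q.R) ^ 2 / 40000 + q.σ / q.R * (CS n * Dq n q) / 50 + Ce n q ≤
      7 / 1600 * (q.σ / q.R) * nx := by
  have k1 := (N_big hq h hu).trans hx
  have k2 := Ce_le hq
  have hT := T_pos hq
  obtain ⟨x1, -, -, -, x5, -⟩ := Xn_facts n q
  set T := q.R / q.σ with hTd
  set X := Xn n q with hX
  have eβ : q.σ / q.R = 1 / T := by rw [hTd, one_div_div]
  have T0 : 0 < T := by linarith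
  have e8 : 1 ≤ Real.exp (8 * T) := Real.one_le_exp (by positivity)
  have k3 : 10 ^ 8 * X * (1 + T) ^ 2 ≤ nx := by
    refine le_trans ?_ k1
    exact le_mul_of_one_le_right (by positivity) e8
  rw [eβ]
  have e1 : 7 / 1600 * (1 / T) * nx = (7 / 1600 * nx) / T := by ring
  have e2 : (1 / T) ^ 2 / 40000 + 1 / T * (CS n * Dq n q) / 50 + Ce n q =
      (1 / (40000 * T) + CS n * Dq n q / 50 + Ce n q * T) / T := by
    field_simp
  rw [e1, e2]
  refine div_le_div_of_nonneg_right ?_ T0.le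
  have f1 : 1 / (40000 * T) ≤ X := by
    rw [div_le_iff₀ (by positivity)]
    nlinarith
  have f2 : Ce n q * T ≤ 256 * X * (1 + T) ^ 2 := by
    have := mul_le_mul_of_nonneg_right k2 T0.le
    have h2 : 256 * X * (1 + T) * T ≤ 256 * X * (1 + T) * (1 + T) :=
      mul_le_mul_of_nonneg_left (by linarith) (by positivity)
    linarith
  have f3 : X ≤ X * (1 + T) ^ 2 := le_mul_of_one_le_right (by linarith) (one_le_pow₀ (by linarith))
  linarith

end pt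

/-! ### The region of `H1` -/

section reg

variable (hq : Hn n q) (h : PkOk q d) {z : VV n} (hz : z ∈ SH1 q d)

include hq hz

theorem SH1_Om : z ∈ Om q d := by
  have hR := hq.inf.R0
  obtain ⟨h1, h2, h3⟩ := hz
  exact ⟨⟨by linarith, by linarith⟩, by linarith, by linarith⟩

include h

/-- The weight near a point of `H1`. -/
theorem W_germ : d.W q =ᶠ[𝓝 z] Wf q d := by
  have hR := hq.inf.R0
  have h1 : d.l z.1 < d.l₀ q + 3 * q.R := by linarith [hz.1]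
  have h2 : d.l z.2 < d.l₀ q + 3 * q.R := by linarith [hz.2.1]
  filter_upwards [W_ret h h1 h2, (Om_open h).mem_nhds (SH1_Om hq hz)] with w a b
  have e := W0_loc hq h b
  rw [a.2.2]
  have e' : WW (d.F q) d.l (gi d.s₁) w = W0 q d w := rfl
  rw [e', e]
  unfold Wf
  ring

/-- The multiplier near a point of `H1`. -/
theorem X_germ : (∀ᶠ w in 𝓝 z, hX q d w =
    deriv d.Φ (d.l w.1 + d.l w.2) + deriv d.Θ (d.l w.1)) ∧
    ∀ᶠ w in 𝓝 z, hY q d w = deriv d.Φ (d.l w.1 + d.l w.2) + deriv d.Θ (d.l w.2) := by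
  have hR := hq.inf.R0
  have h1 : d.l z.1 < d.l₀ q + 3 * q.R := by linarith [hz.1]
  have h2 : d.l z.2 < d.l₀ q + 3 * q.R := by linarith [hz.2.1]
  constructor
  · filter_upwards [W_ret h h1 h2] with w a
    unfold hX hN
    rw [a.1, a.2.1]
  · filter_upwards [W_ret h h1 h2] with w a
    unfold hY hN
    rw [a.1, a.2.1]

end reg

section sm

variable (h : PkOk q d)

include h

theorem hN_sm : ContDiff ℝ ∞ (hN q d) :=
  h.Φ's.comp ((h.lev.sm.comp (h.ret.sm.comp contDiff_fst)).add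
    (h.lev.sm.comp (h.ret.sm.comp contDiff_snd)))

theorem Θ's : ContDiff ℝ ∞ (deriv d.Θ) := (contDiff_infty_iff_deriv.1 h.Θs).2

theorem hX_sm : ContDiff ℝ ∞ (hX q d) := (hN_sm h).add ((Θ's h).comp (lx_sm h))

theorem hY_sm : ContDiff ℝ ∞ (hY q d) := (hN_sm h).add ((Θ's h).comp (ly_sm h))

theorem lm_sm : ContDiff ℝ ∞ (lmH q d) := contDiff_const.mul (hX_sm h)

theorem mu_sm : ContDiff ℝ ∞ (muH q d) := contDiff_const.mul (hY_sm h)

end sm

end Vale.Agent.P088.R2.H835.INF
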