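import Vale.Agent.P088.R2.H404.INF.Alv
import Vale.Agent.P088.R2.H673.INF.Rho
import Vale.Agent.P088.R2.H31.EP.Thx

/-!
# P088, stage 3, leaf iH, rows H1, O1: sizes of `Φ(u)`, `Θ(l)`
-/

open MeasureTheory Set Filter
open scoped ContDiff Topology

noncomputable section

namespace Vale.Agent.P088.R2.H835.INF

open Vale.Agent.P088.LR Vale.Agent.P088.HY Vale.Agent.P088.R2.H475 Vale.Agent.P088.R2.H31.EP
open Vale.Agent.P088.R2.H269.INF

variable {n : ℕ}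

/-- The derivatives of the level. -/
theorem lev_jet (hn : 1 ≤ n) {σ : ℝ} (h0 : 0 < σ) (h1 : σ ≤ 1 / 5000) : ∃ K : ℝ, 1 ≤ K ∧
    ∀ R kap Gs : ℝ, 1 ≤ R → ∀ x ∈ Bw n σ R, ∀ i, 1 ≤ i → i ≤ 4 →
      ‖iteratedFDeriv ℝ i (levG n σ R kap Gs) x‖ ≤ K := by
  obtain ⟨C₁, p1, h1'⟩ := levG_bound1 (n := n) hn h0 h1
  obtain ⟨C₂, p2, h2⟩ := levG_bound (n := n) hn h0 h1 0
  obtain ⟨C₃, p3, h3⟩ := levG_bound (n := n) hn h0 h1 1
  obtain ⟨C₄, p4, h4⟩ := levG_bound (n := n) hn h0 h1 2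
  refine ⟨1 + C₁ * (2 + 3 / σ) + C₂ + C₃ + C₄, ?_, fun R kap Gs hR x hx i hi hi4 => ?_⟩
  · have : 0 ≤ C₁ * (2 + 3 / σ) := by positivity
    linarith
  have hR0 : 0 < R := by linarith
  have q1 : 0 ≤ C₁ * (2 + 3 / σ) := by positivity
  have r1 : R⁻¹ ≤ 1 := inv_le_one_of_one_le₀ hR
  have r0 : 0 ≤ R⁻¹ := inv_nonneg.2 hR0.le
  have pw : ∀ j, R⁻¹ ^ j ≤ 1 := fun j => pow_le_one₀ r0 r1
  obtain rfl | rfl | rfl | rfl : i = 1 ∨ i = 2 ∨ i = 3 ∨ i = 4 := by omega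
  · rw [← norm_iteratedFDeriv_fderiv (n := 0), norm_iteratedFDeriv_zero]
    have a1 := h1' R kap Gs hR0 x
    have a2 := Bw_norm h0 hR0 hx
    have a3 : C₁ * (1 + ‖x‖ / R) ≤ C₁ * (2 + 3 / σ) := mul_le_mul_of_nonneg_left (by linarith) p1.le
    linarith
  · have a1 := h2 R kap Gs hR0 x
    have a2 : C₂ * R⁻¹ ^ (0 + 1) ≤ C₂ := mul_le_of_le_one_right p2.le (pw _)
    linarith
  · have a1 := h3 R kap Gs hR0 x
    have a2 : C₃ * R⁻¹ ^ (1 + 1) ≤ C₃ := mul_le_of_le_one_right p3.le (pw _)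
    linarith
  · have a1 := h4 R kap Gs hR0 x
    have a2 : C₄ * R⁻¹ ^ (2 + 1) ≤ C₄ := mul_le_of_le_one_right p4.le (pw _)
    linarith

/-- Composition with a function of one variable. -/
theorem comp_jet {E : Type*} [NormedAddCommGroup E] [NormedSpace ℝ E] {g : ℝ → ℝ} {h : E → ℝ}
    (hg : ContDiff ℝ ∞ g) (hh : ContDiff ℝ ∞ h) {z : E} {M K : ℝ} (hM : 0 ≤ M) (hK : 1 ≤ K)
    (b : ∀ j ≤ 3, |iteratedDeriv (j + 1) g (h z)| ≤ M)
    (c : ∀ i, 1 ≤ i → i ≤ 4 → ‖iteratedFDeriv ℝ i h z‖ ≤ K) {i : ℕ} (hi : 1 ≤ i) (hi4 : i ≤ 4) :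
    ‖iteratedFDeriv ℝ i (fun z => g (h z)) z‖ ≤ 24 * K ^ 4 * M := by
  have hK0 : 0 ≤ K := by linarith
  set g' : ℝ → ℝ := fun t => g t - g (h z) with hg'
  have sg' : ContDiff ℝ ∞ g' := hg.sub contDiff_const
  have key := norm_iteratedFDeriv_comp_le (𝕜 := ℝ) (n := i) (N := ∞) sg' hh
    (by exact_mod_cast le_top) z (C := M) (D := K) (fun j hj => ?_) (fun j hj hji => ?_)
  · have e : ‖iteratedFDeriv ℝ i (g' ∘ h) z‖ = ‖iteratedFDeriv ℝ i (fun z => g (h z)) z‖ := by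
      obtain ⟨k, rfl⟩ : ∃ k, i = k + 1 := ⟨i - 1, by omega⟩
      rw [← norm_iteratedFDeriv_fderiv, ← norm_iteratedFDeriv_fderiv]
      have : fderiv ℝ (g' ∘ h) = fderiv ℝ fun z => g (h z) := by
        funext w
        have e2 : g' ∘ h = fun w => g (h w) - g (h z) := rfl
        rw [e2, fderiv_sub_const]
      rw [this]
    rw [e] at key
    refine key.trans ?_
    have h1 : (i.factorial : ℝ) ≤ 24 := by
      have : i.factorial ≤ Nat.factorial 4 := Nat.factorial_le hi4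
      have h24 : Nat.factorial 4 = 24 := by decide
      rw [h24] at this
      exact_mod_cast this
    have h2 : K ^ i ≤ K ^ 4 := pow_le_pow_right₀ hK hi4
    calc (i.factorial : ℝ) * M * K ^ i ≤ 24 * M * K ^ 4 := by gcongr
      _ = 24 * K ^ 4 * M := by ring
  · rcases j with _ | j
    · rw [norm_iteratedFDeriv_zero, hg']
      simp [hM]
    · rw [norm_iteratedFDeriv_eq_norm_iteratedDeriv]
      have e : iteratedDeriv (j + 1) g' = iteratedDeriv (j + 1) g := by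
        rw [iteratedDeriv_succ', iteratedDeriv_succ']
        congr 1
        funext t
        rw [hg', deriv_sub_const]
      rw [e]
      exact b j (by omega)
  · exact (c j hj (by omega)).trans (le_self_pow₀ hK (by omega))

theorem fst_jet {l : V n → ℝ} (hl : ContDiff ℝ ∞ l) (i : ℕ) (z : VV n) :
    ‖iteratedFDeriv ℝ i (fun z : VV n => l z.1) z‖ ≤ ‖iteratedFDeriv ℝ i l z.1‖ := by
  have e := (ContinuousLinearMap.fst ℝ (V n) (V n)).iteratedFDeriv_comp_right hl z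
    (i := i) (by exact_mod_cast le_top)
  have e' : (fun z : VV n => l z.1) = l ∘ (ContinuousLinearMap.fst ℝ (V n) (V n)) := rfl
  rw [e', e]
  refine (ContinuousMultilinearMap.norm_compContinuousLinearMap_le _ _).trans ?_
  refine mul_le_of_le_one_right (norm_nonneg _) ?_
  exact Finset.prod_le_one (fun _ _ => norm_nonneg _) fun _ _ =>
    ContinuousLinearMap.norm_fst_le ℝ (V n) (V n)

theorem snd_jet {l : V n → ℝ} (hl : ContDiff ℝ ∞ l) (i : ℕ) (z : VV n) :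
    ‖iteratedFDeriv ℝ i (fun z : VV n => l z.2) z‖ ≤ ‖iteratedFDeriv ℝ i l z.2‖ := by
  have e := (ContinuousLinearMap.snd ℝ (V n) (V n)).iteratedFDeriv_comp_right hl z
    (i := i) (by exact_mod_cast le_top)
  have e' : (fun z : VV n => l z.2) = l ∘ (ContinuousLinearMap.snd ℝ (V n) (V n)) := rfl
  rw [e', e]
  refine (ContinuousMultilinearMap.norm_compContinuousLinearMap_le _ _).trans ?_
  refine mul_le_of_le_one_right (norm_nonneg _) ?_
  exact Finset.prod_le_one (fun _ _ => norm_nonneg _) fun _ _ =>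
    ContinuousLinearMap.norm_snd_le ℝ (V n) (V n)

/-- The constants of `Φ`. -/
def _root_.Vale.Agent.P088.R2.H31.EP.Cst.cΦ (q : Cst) : ℝ :=
  1 + (|q.phL.1 0| + |q.phL.1 1| + |q.phL.1 2|) * (q.L + 1 / 20)

/-- The constants of `Θ`. -/
def _root_.Vale.Agent.P088.R2.H31.EP.Cst.cΘ (q : Cst) : ℝ :=
  1 + (thC 0 + thC 2 + (thC 1 + thC 3) + (thC 2 + thC 4)) * (q.L₄ ^ 4 * 3 + 2)

variable {q : Cst} {d : Pk n}

theorem N_pos (h : PkOk q d) (hM : 1 ≤ q.M₀) (u : ℝ) : q.M₀ ≤ deriv d.Φ u :=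
  (h.ph.isΦ.n1 u).trans (h.top.l1 u)

theorem phi_jet (h : PkOk q d) (hM : 1 ≤ q.M₀) (hL : 0 ≤ q.L) (u : ℝ) {j : ℕ} (hj : j ≤ 3) :
    |iteratedDeriv (j + 1) d.Φ u| ≤ q.cΦ * deriv d.Φ u := by
  have hN : 0 ≤ deriv d.Φ u := by linarith [N_pos h hM u]
  have hK := h.top.k2 u
  have hK0 := (h.top.k0 u).le
  have a0 := abs_nonneg (q.phL.1 0)
  have a1 := abs_nonneg (q.phL.1 1)
  have a2 := abs_nonneg (q.phL.1 2)
  have key : ∀ i, |q.phL.1 i| ≤ |q.phL.1 0| + |q.phL.1 1| + |q.phL.1 2| →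
      |iteratedDeriv (i + 2) d.Φ u| ≤ q.cΦ * deriv d.Φ u := by
    intro i hi
    have h1 := h.top.kL i u
    have h2 : q.phL.1 i * deriv (deriv d.Φ) u ≤
        (|q.phL.1 0| + |q.phL.1 1| + |q.phL.1 2|) * deriv (deriv d.Φ) u :=
      mul_le_mul_of_nonneg_right ((le_abs_self _).trans hi) hK0
    have h3 : (|q.phL.1 0| + |q.phL.1 1| + |q.phL.1 2|) * deriv (deriv d.Φ) u ≤
        (|q.phL.1 0| + |q.phL.1 1| + |q.phL.1 2|) * ((q.L + 1 / 20) * deriv d.Φ u) :=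
      mul_le_mul_of_nonneg_left hK (by positivity)
    unfold Cst.cΦ
    linarith
  rcases j with _ | j
  · rw [zero_add, iteratedDeriv_one, abs_of_nonneg hN]
    refine le_mul_of_one_le_left hN ?_
    unfold Cst.cΦ
    have : 0 ≤ (|q.phL.1 0| + |q.phL.1 1| + |q.phL.1 2|) * (q.L + 1 / 20) := by positivity
    linarith
  · obtain rfl | rfl | rfl : j = 0 ∨ j = 1 ∨ j = 2 := by omega
    · exact key 0 (by linarith)
    · exact key 1 (by linarith)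
    · exact key 2 (by linarith)

theorem the_jet (h : PkOk q d) (hR : 1 ≤ q.R) (hL : 1 ≤ q.L₄) (h1 : q.tnL ≤ 1) (h2 : q.tny ≤ 1)
    (t : ℝ) {j : ℕ} (hj : j ≤ 3) :
    |iteratedDeriv (j + 1) d.Θ t| ≤ q.cΘ * (deriv d.Θ t + 1) := by
  have hR0 : 0 < q.R := by linarith
  have d0 := h.Θd0 hR0 t
  have t0 := thC_nonneg 0
  have t1 := thC_nonneg 1
  have t2 := thC_nonneg 2
  have t3 := thC_nonneg 3
  have t4 := thC_nonneg 4
  set S := thC 0 + thC 2 + (thC 1 + thC 3) + (thC 2 + thC 4) with hS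
  have S0 : 0 ≤ S := by positivity
  have L0 : 0 < q.L₄ := by linarith
  have a0 : 0 ≤ q.tnL := by unfold Cst.tnL Cst.A₄; positivity
  have b0 : 0 ≤ q.tny := by unfold Cst.tny; positivity
  -- the second derivative
  have hs : 0 < √q.R := Real.sqrt_pos.2 hR0
  have hs1 : 1 ≤ √q.R := Real.one_le_sqrt.2 hR
  have hi1 : (√q.R)⁻¹ ≤ 1 := inv_le_one_of_one_le₀ hs1
  have hi0 : 0 ≤ (√q.R)⁻¹ := inv_nonneg.2 hs.le
  have up := h.Θup hR t
  have e1 := h.Θd hR0 t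
  have x0 := h.th.d0 t
  have y0 := h.ts.d0 (t / √q.R)
  have D2 : deriv (deriv d.Θ) t ≤ q.L₄ * (deriv d.Θ t + 2) := by
    have k1 : (√q.R)⁻¹ * (deriv d.ΘT (t / √q.R) + q.tny) ≤
        q.L₄ * (deriv d.ΘT (t / √q.R) + q.tny) :=
      mul_le_mul_of_nonneg_right (hi1.trans hL) (by positivity)
    rw [e1]
    have k2 : q.L₄ * (deriv d.ΘL t + q.tnL) + q.L₄ * (deriv d.ΘT (t / √q.R) + q.tny) ≤
        q.L₄ * (deriv d.ΘL t + deriv d.ΘT (t / √q.R) + 2) := by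
      rw [← mul_add]
      exact mul_le_mul_of_nonneg_left (by linarith) L0.le
    linarith
  have D20 := h.Θcv hR0 t
  have key : ∀ i ≤ 2, thC i + thC (i + 2) ≤ S →
      |iteratedDeriv (i + 2) d.Θ t| ≤ q.cΘ * (deriv d.Θ t + 1) := by
    intro i hi hSi
    have k1 := h.Θll hR hL i t
    have p1 : q.L₄ ^ i ≤ q.L₄ ^ 3 := pow_le_pow_right₀ hL (by omega)
    have p2 : q.L₄ ^ (i + 2) ≤ q.L₄ ^ 4 := pow_le_pow_right₀ hL (by omega)
    have k2 : q.L₄ ^ i * deriv (deriv d.Θ) t ≤ q.L₄ ^ 4 * (deriv d.Θ t + 2) := by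
      calc q.L₄ ^ i * deriv (deriv d.Θ) t ≤ q.L₄ ^ 3 * (q.L₄ * (deriv d.Θ t + 2)) :=
            mul_le_mul p1 D2 D20 (by positivity)
        _ = _ := by ring
    have k3 : q.L₄ ^ (i + 2) * q.tnL ≤ q.L₄ ^ 4 * 1 := mul_le_mul p2 h1 a0 (by positivity)
    have k4 : q.L₄ ^ i * deriv (deriv d.Θ) t + q.L₄ ^ (i + 2) * q.tnL + q.tny ≤
        (q.L₄ ^ 4 * 3 + 2) * (deriv d.Θ t + 1) := by
      have : 0 ≤ q.L₄ ^ 4 := by positivity
      nlinarith
    have k5 : 0 ≤ q.L₄ ^ i * deriv (deriv d.Θ) t + q.L₄ ^ (i + 2) * q.tnL + q.tny := by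
      positivity
    have k6 : 0 ≤ thC i + thC (i + 2) := add_nonneg (thC_nonneg _) (thC_nonneg _)
    calc |iteratedDeriv (i + 2) d.Θ t| ≤ (thC i + thC (i + 2)) *
          (q.L₄ ^ i * deriv (deriv d.Θ) t + q.L₄ ^ (i + 2) * q.tnL + q.tny) := k1
      _ ≤ S * ((q.L₄ ^ 4 * 3 + 2) * (deriv d.Θ t + 1)) := mul_le_mul hSi k4 k5 S0
      _ ≤ q.cΘ * (deriv d.Θ t + 1) := by
        unfold Cst.cΘ
        rw [← hS]
        nlinarith
  rcases j with _ | j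
  · rw [zero_add, iteratedDeriv_one, abs_of_nonneg d0]
    have : 1 ≤ q.cΘ := by
      unfold Cst.cΘ
      have : 0 ≤ S * (q.L₄ ^ 4 * 3 + 2) := by positivity
      linarith
    nlinarith
  · obtain rfl | rfl | rfl : j = 0 ∨ j = 1 ∨ j = 2 := by omega
    · exact key 0 (by omega) (by linarith)
    · exact key 1 (by omega) (by linarith)
    · exact key 2 (by omega) (by linarith)

end Vale.Agent.P088.R2.H835.INF
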