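import Vale.Agent.P088.R2.H168.INF.H1z
import Vale.Agent.P088.R2.H168.INF.Spec2
import Vale.Agent.P088.R2.H168.INF.Lvp

/-!
# P088, stage 3, leaf iH, rows H1, O1: slot quantities under `W = G + T(x) + T(y)`

`Eqs σ f g z`: the derivatives of the slot `σ` of `f`, `g` agree near `z`; `Iv σ h`: `h` does not
depend on the variable of the slot.
-/

open MeasureTheory Set Filter
open scoped ContDiff Topology

noncomputable section

namespace Vale.Agent.P088.R2.H835.INF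

open Vale.Agent.P088.R2.H961.GW Vale.Agent.P088.R2.H960.W Vale.Agent.P088.R2.H644
open Vale.Agent.P088.R2.H551.E Vale.Agent.P088.R2.H168.INF

variable {E ι κ : Type*} [NormedAddCommGroup E] [NormedSpace ℝ E] [Fintype ι] [Fintype κ]

/-- The derivatives of the slot agree near the point. -/
def Eqs (σ : Sl E ι) (f g : E → ℝ) (z : E) : Prop := ∀ i, σ.D i f =ᶠ[𝓝 z] σ.D i g

/-- The function does not depend on the variable of the slot. -/
def Iv (σ : Sl E ι) (f : E → ℝ) : Prop := ∀ i (t : ℝ) (w : E), f (w + t • σ.e i) = f w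

section pw

variable {σ : Sl E ι} {τ : Sl E κ} {U : Set E} {θ θ' : E → ℝ} {f f' g g' h : E → ℝ} {z : E}

omit [Fintype ι] in
theorem Eqs.of (e : f =ᶠ[𝓝 z] g) : Eqs σ f g z := fun i => by
  filter_upwards [e.eventuallyEq_nhds] with w hw using D_congr_nhds σ hw i

omit [Fintype ι] in
theorem Eqs.symm (e : Eqs σ f g z) : Eqs σ g f z := fun i => (e i).symm

omit [Fintype ι] in
theorem Eqs.trans (e : Eqs σ f g z) (e' : Eqs σ g h z) : Eqs σ f h z := fun i => (e i).trans (e' i)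

omit [Fintype ι] in
theorem Eqs.D (e : Eqs σ f g z) (i : ι) : σ.D i f z = σ.D i g z := (e i).eq_of_nhds

theorem Eqs.ev1 (e : Eqs σ f g z) : ∀ᶠ w in 𝓝 z, ∀ i, σ.D i f w = σ.D i g w :=
  eventually_all.2 fun i => e i

theorem Eqs.ev2 (e : Eqs σ f g z) : ∀ᶠ w in 𝓝 z, ∀ i j, σ.D i (σ.D j f) w = σ.D i (σ.D j g) w :=
  eventually_all.2 fun i => eventually_all.2 fun j => by
    filter_upwards [(e j).eventuallyEq_nhds] with w hw using D_congr_nhds σ hw i

theorem Eqs.L (e : Eqs σ f g z) : σ.Λ f =ᶠ[𝓝 z] σ.Λ g := by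
  filter_upwards [e.ev1, e.ev2] with w a b
  unfold Sl.Λ
  simp only [a, b]

theorem Eqs.G (e : Eqs σ f g z) (e' : Eqs σ f' g' z) : σ.Γ f f' =ᶠ[𝓝 z] σ.Γ g g' := by
  filter_upwards [e.ev1, e'.ev1] with w a b
  unfold Sl.Γ
  simp only [a, b]

theorem Eqs.F (e : Eqs σ f g z) : σ.F f =ᶠ[𝓝 z] σ.F g := e.G e

theorem Eqs.G2 (e : Eqs σ f g z) : Ch.G2 σ f z = Ch.G2 σ g z := by
  unfold Ch.G2
  rw [(Eqs.of (σ := σ) e.F).L.eq_of_nhds, (e.G (Eqs.of e.L)).eq_of_nhds]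

theorem Eqs.HH (e : Eqs σ f g z) (A : ι → ℝ) : H168.INF.HH σ f z A = H168.INF.HH σ g z A := by
  have a := e.ev1.self_of_nhds
  have b := e.ev2.self_of_nhds
  unfold H168.INF.HH Sl.Hc
  simp only [a, b]

theorem Eqs.gA (e : Eqs σ f g z) (A : ι → ℝ) : H747.S.gA σ f z A = H747.S.gA σ g z A := by
  unfold H747.S.gA
  simp only [e.D]

omit [Fintype ι] in
theorem Iv.D0 (h : Iv σ f) (i : ι) (w : E) : σ.D i f w = 0 := by
  unfold Sl.D
  by_cases hd : DifferentiableAt ℝ f w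
  · have e : lineDeriv ℝ f w (σ.e i) = fderiv ℝ f w (σ.e i) := hd.lineDeriv_eq_fderiv
    rw [← e]
    unfold lineDeriv
    have : (fun t : ℝ => f (w + t • σ.e i)) = fun _ => f w := funext fun t => h i t w
    rw [this]
    simp
  · rw [fderiv_zero_of_not_differentiableAt hd]
    simp

omit [Fintype ι] in
/-- A summand which does not depend on the variable of the slot. -/
theorem Eqs.add (e : f =ᶠ[𝓝 z] fun w => g w + h w) (hg : Differentiable ℝ g)
    (hh : Differentiable ℝ h) (iv : Iv σ h) : Eqs σ f g z := fun i => by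
  filter_upwards [e.eventuallyEq_nhds] with w hw
  rw [D_congr_nhds σ hw i]
  unfold Sl.D
  rw [fderiv_fun_add (hg w) (hh w), _root_.add_apply, mul_add]
  have := iv.D0 i w
  unfold Sl.D at this
  rw [this, add_zero]

/-- The star form depends only on the germ of the weight. -/
theorem TH_germ (e : f =ᶠ[𝓝 z] g) (A : ι → ℝ) (B : κ → ℝ) :
    Ch.TH σ τ f z A B = Ch.TH σ τ g z A B := by
  have e1 : ∀ i k, Ch.Mc σ τ f i k z = Ch.Mc σ τ g i k z := fun i k => by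
    unfold Ch.Mc
    refine Finset.sum_congr rfl fun j _ => Finset.sum_congr rfl fun l _ => ?_
    rw [D_congr_nhds σ ((Eqs.of (σ := τ) e) l) j]
  have h1 := (Eqs.of (σ := σ) e).HH A
  have h2 := (Eqs.of (σ := τ) e).HH B
  rw [TH_eq', TH_eq', h1, h2]
  unfold MM
  simp only [e1]

theorem M2_germ (e : f =ᶠ[𝓝 z] g) : M2 σ τ f f z = M2 σ τ g g z := by
  unfold M2
  refine Finset.sum_congr rfl fun k _ => Finset.sum_congr rfl fun l _ => ?_
  have e1 : Eqs σ (τ.D k f) (τ.D k g) z := Eqs.of ((Eqs.of (σ := τ) e) k)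
  have e2 : Eqs σ (τ.D l f) (τ.D l g) z := Eqs.of ((Eqs.of (σ := τ) e) l)
  rw [(e1.G e2).eq_of_nhds]

theorem G_zero' (σ : Sl E ι) (W : E → ℝ) (z : E) : σ.Γ W 0 z = 0 := by
  unfold Sl.Γ
  refine Finset.sum_eq_zero fun i _ => Finset.sum_eq_zero fun j _ => ?_
  have : σ.D j (0 : E → ℝ) z = 0 := D_const σ 0 j z
  rw [this, mul_zero]

theorem qf_germ {τ : Sl E ι} (e : f =ᶠ[𝓝 z] g) (A B : ι → ℝ) (x y : ℝ) :
    H747.S.qf σ τ 0 0 f z A B x y = H747.S.qf σ τ 0 0 g z A B x y := by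
  have es : Eqs σ f g z := Eqs.of e
  have et : Eqs τ f g z := Eqs.of e
  unfold H747.S.qf
  rw [es.G2, et.G2, M2_germ (σ := σ) (τ := τ) e, (Eqs.of (σ := σ) es.L).gA,
    (Eqs.of (σ := σ) et.L).gA, (Eqs.of (σ := τ) es.L).gA, (Eqs.of (σ := τ) et.L).gA,
    (Eqs.of (σ := σ) es.L).L.eq_of_nhds, (Eqs.of (σ := σ) et.L).L.eq_of_nhds,
    (Eqs.of (σ := τ) et.L).L.eq_of_nhds, G_zero', G_zero', G_zero', G_zero']

end pw

end Vale.Agent.P088.R2.H835.INF
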