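import Vale.Agent.P088.R2.H835.INF.Num
import Vale.Agent.P088.R2.H835.INF.Tr

/-!
# P088, stage 3, leaf iH, rows H1, O1: the weight near a point, sizes
-/

open MeasureTheory Set Filter
open scoped ContDiff Topology

noncomputable section

namespace Vale.Agent.P088.R2.H835.INF

open Vale.Agent.P088.LR Vale.Agent.P088.HY Vale.Agent.P088.R2.H475 Vale.Agent.P088.R2.H31.EP
open Vale.Agent.P088.R2.H269.INF Vale.Agent.P088.R2.H961.GW
open Vale.Agent.P088.R2.H644 Vale.Agent.P088.R2.H867.EP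
open Vale.Agent.P088.R2.H464.Cu (mid dif rq mid_apply)
open Vale.Agent.P088.R2.H404.INF (W_ret l₀_eq)
open Vale.Agent.P088.R2.H168.INF (st2 W0 wX0 wY0 RowSt P1)
open Vale.Agent.P088.R2.H380.INF (Bs gm gm_nn gm_le)

variable {n : ℕ} {q : Cst} {d : Pk n}

/-- The hypotheses of `sb_pt`. -/
theorem bs_of (h : PkOk q d) (hR : 1 ≤ q.R) (he : q.ε ≤ 1) {f : VV n → ℝ}
    (hf : ContDiff ℝ ∞ f) : Bs q.R d.s₁ d.s₂ f := by
  have key : ∀ s : MF n, (∀ i j, ∀ m ≤ 12, ∀ x, ‖iteratedFDeriv ℝ m (fun x => s x i j -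
      (1 : Matrix (Fin n) (Fin n) ℝ) i j) x‖ ≤ q.ε * q.R⁻¹ ^ m) → ∀ i j, ∀ m ≤ 3, ∀ x,
      ‖iteratedFDeriv ℝ m (fun x => s x i j) x‖ ≤ 2 * q.R⁻¹ ^ m := by
    intro s hs i j m hm x
    have h1 := hs i j m (by omega) x
    rcases m with _ | m
    · rw [norm_iteratedFDeriv_zero, pow_zero, mul_one, Real.norm_eq_abs] at h1 ⊢
      have h2 : |(1 : Matrix (Fin n) (Fin n) ℝ) i j| ≤ 1 := by
        rw [Matrix.one_apply]; split_ifs <;> simp
      have h3 := abs_sub_abs_le_abs_sub (s x i j) ((1 : Matrix (Fin n) (Fin n) ℝ) i j)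
      linarith
    · have e : (fderiv ℝ fun x => s x i j - (1 : Matrix (Fin n) (Fin n) ℝ) i j) =
          fderiv ℝ fun x => s x i j := by
        funext x
        exact fderiv_sub_const _
      rw [← norm_iteratedFDeriv_fderiv, e, norm_iteratedFDeriv_fderiv] at h1
      refine h1.trans (mul_le_mul_of_nonneg_right (by linarith) (by positivity))
  refine ⟨hR, h.rg.sm₁, h.rg.sm₂, fun x i j => ((h.rg.sy₁ x).apply i j).symm,
    fun x i j => ((h.rg.sy₂ x).apply i j).symm, key _ h.rg.cl₁, key _ h.rg.cl₂, hf⟩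

/-- The region: both levels moderate. -/
def Om (q : Cst) (d : Pk n) : Set (VV n) :=
  {w | (d.l₀ q + 5 / 4 * q.R < d.l w.1 ∧ d.l w.1 < d.l₀ q + 16 / 5 * q.R) ∧
    (d.l₀ q + 5 / 4 * q.R < d.l w.2 ∧ d.l w.2 < d.l₀ q + 16 / 5 * q.R)}

theorem Om_open (h : PkOk q d) : IsOpen (Om q d) := by
  have hl : Continuous d.l := h.lev.sm.continuous
  have h1 : Continuous fun z : VV n => d.l z.1 := hl.comp continuous_fst
  have h2 : Continuous fun z : VV n => d.l z.2 := hl.comp continuous_snd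
  exact ((isOpen_lt continuous_const h1).inter (isOpen_lt h1 continuous_const)).inter
    ((isOpen_lt continuous_const h2).inter (isOpen_lt h2 continuous_const))

theorem Om_Bw1 (hq : Hn n q) (h : PkOk q d) {w : VV n} (hw : w ∈ Om q d) : w.1 ∈ Bw n q.σ q.R := by
  refine Bw_of (kap := d.kap) (Gs := d.Gs) hq.inf.σ0 hq.inf.σ1 hq.inf.R0 ?_
  have := hw.1.2
  rw [h.lev.lit] at this
  have hR := hq.inf.R0
  rw [l₀_eq] at this
  linarith

theorem Om_Bw2 (hq : Hn n q) (h : PkOk q d) {w : VV n} (hw : w ∈ Om q d) : w.2 ∈ Bw n q.σ q.R := by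
  refine Bw_of (kap := d.kap) (Gs := d.Gs) hq.inf.σ0 hq.inf.σ1 hq.inf.R0 ?_
  have := hw.2.2
  rw [h.lev.lit] at this
  have hR := hq.inf.R0
  rw [l₀_eq] at this
  linarith

/-- The correction of `u` vanishes. -/
theorem u_loc (hq : Hn n q) (h : PkOk q d) {w : VV n} (hw : w ∈ Om q d) :
    d.u q w = d.l w.1 + d.l w.2 := by
  have hR := hq.inf.R0
  have hε : n * q.ε ≤ 1 / 2 := by linarith [hq.εn, mul_comm (n : ℝ) q.ε]
  have key : d.χ (d.r2 w) * d.μc q (d.l (mid w)) = 0 := by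
    rcases le_or_gt 4 (d.r2 w) with h4 | h4
    · rw [h.χ0 _ h4, zero_mul]
    · -- near pair
      have e2 : d.r2 w = 2 * rq (gi d.s₁) w := rfl
      have h5 := h.rq_close hε w
      have hq0 : 0 ≤ H31.EP.qq w := H31.EP.qq_nonneg w
      have hne : 2 * (n : ℝ) ^ 2 * q.ε ≤ 3 / 4 := hq.ε3
      have h6 : 1 / 4 * H31.EP.qq w ≤ 2 * rq (gi d.s₁) w := by
        have := (abs_le.1 h5).1
        nlinarith
      have h7 : HY.sq (w.1 - w.2) ≤ 16 := by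
        have e : H31.EP.qq w = HY.sq (w.1 - w.2) := rfl
        rw [← e]
        linarith
      have h8 : ‖w.1 - w.2‖ ≤ 4 := by
        refine (H673.INF.norm_le_sq _).trans ?_
        rw [Real.sqrt_le_left (by norm_num)]
        linarith
      have ex : w.1 - mid w = (1 / 2 : ℝ) • (w.1 - w.2) := by
        funext i
        simp only [mid_apply, Pi.sub_apply, Pi.smul_apply, smul_eq_mul]
        ring
      have nx : ‖w.1 - mid w‖ ≤ 4 := by
        rw [ex, norm_smul]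
        norm_num
        linarith
      have hm : mid w ∈ Bw n q.σ q.R := mid_Bw (Om_Bw1 hq h hw) (Om_Bw2 hq h hw)
      have lx := KN_bd hq.n1 hq.inf.σ0 hq.inf.σ1 hq.inf.R1 (kap := d.kap) (Gs := d.Gs) hm nx
      rw [← h.lev.lit] at lx
      have h9 := hw.1.1
      have h10 : d.l₀ q + q.R ≤ d.l (mid w) := by linarith [hq.mid]
      rw [d.μc_zero q hR h10, mul_zero]
  show d.l w.1 + d.l w.2 + 2 * (d.χ (d.r2 w) * d.μc q (d.l (mid w))) = _
  rw [key, mul_zero, add_zero]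

/-- The weight without `Θ`. -/
theorem W0_loc (hq : Hn n q) (h : PkOk q d) {w : VV n} (hw : w ∈ Om q d) :
    W0 q d w = d.Φ (d.l w.1 + d.l w.2) + st2 q d w := by
  have hu := u_loc hq h hw
  show d.Φ (d.u q w) + 1 * st2 q d w = _
  rw [hu, one_mul]

theorem it_add {E : Type*} [NormedAddCommGroup E] [NormedSpace ℝ E] {f g : E → ℝ}
    (hf : ContDiff ℝ ∞ f) (hg : ContDiff ℝ ∞ g) (i : ℕ) (z : E) :
    ‖iteratedFDeriv ℝ i (fun z => f z + g z) z‖ ≤ ‖iteratedFDeriv ℝ i f z‖ +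
      ‖iteratedFDeriv ℝ i g z‖ := by
  have e : (fun z => f z + g z) = f + g := rfl
  have hi : (i : WithTop ℕ∞) ≤ ∞ := by exact_mod_cast le_top
  rw [e, iteratedFDeriv_add_apply (hf.of_le hi).contDiffAt (hg.of_le hi).contDiffAt]
  exact norm_add_le _ _

/-! ### Smoothness -/

section sm

variable (hq : Hn n q) (h : PkOk q d)

include hq h

theorem st_sm : ContDiff ℝ ∞ (st2 q d) := by
  have hε : n * q.ε ≤ 1 / 2 := by linarith [hq.εn, mul_comm (n : ℝ) q.ε]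
  have hg := fun i j => h.gi_sm hε i j
  have hu : ContDiff ℝ ∞ (d.u q) := h.u_sm hg
  have hr : ContDiff ℝ ∞ d.r2 := contDiff_const.mul (h.rq_sm hε)
  exact (st_smooth h.ok).comp (hu.prodMk hr)

omit hq in
theorem lx_sm : ContDiff ℝ ∞ fun z : VV n => d.l z.1 := h.lev.sm.comp contDiff_fst

omit hq in
theorem ly_sm : ContDiff ℝ ∞ fun z : VV n => d.l z.2 := h.lev.sm.comp contDiff_snd

theorem G_sm : ContDiff ℝ ∞ fun z : VV n => d.Φ (d.l z.1 + d.l z.2) + st2 q d z :=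
  (h.Φs.comp ((lx_sm h).add (ly_sm h))).add (st_sm hq h)

omit hq in
theorem Tx_sm : ContDiff ℝ ∞ fun z : VV n => d.Θ (d.l z.1) := h.Θs.comp (lx_sm h)

omit hq in
theorem Ty_sm : ContDiff ℝ ∞ fun z : VV n => d.Θ (d.l z.2) := h.Θs.comp (ly_sm h)

theorem W_sm' : ContDiff ℝ ∞ (d.W q) := by
  have hε : n * q.ε ≤ 1 / 2 := by linarith [hq.εn, mul_comm (n : ℝ) q.ε]
  exact WT_smooth h.ok h.Θs h.ret.sm h.lev.sm (h.gi_sm hε)

end sm

/-! ### Sizes -/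

/-- The bound of the stiff part at a point. -/
def StB (q : Cst) (d : Pk n) (z : VV n) : Prop := ∀ j, 1 ≤ j → j ≤ 4 →
  ‖iteratedFDeriv ℝ j (st2 q d) z‖ ≤ Real.exp (8 * (q.R / q.σ))

section sz

variable (hq : Hn n q) (h : PkOk q d) {z : VV n} (hz : z ∈ Om q d)

include hq h hz

/-- `N ≥ 1`. -/
theorem e8_le (hu : 2 * d.l₀ q + 91 / 20 * q.R ≤ d.l z.1 + d.l z.2) :
    Real.exp (8 * (q.R / q.σ)) ≤ deriv d.Φ (d.l z.1 + d.l z.2) := by
  have h1 := N_top hq h hu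
  have h2 := hq.big
  have h3 := Bg_pos n q
  have hT : 0 ≤ q.R / q.σ := div_nonneg hq.inf.R0.le hq.inf.σ0.le
  have h4 : (1 : ℝ) ≤ (1 + q.R / q.σ) ^ 2 := one_le_pow₀ (by linarith)
  have h5 : 1 ≤ Bg n q * (1 + q.R / q.σ) ^ 2 := by nlinarith
  have h6 := Real.exp_pos (8 * (q.R / q.σ))
  nlinarith

omit h hz in
theorem cΦ_le : q.cΦ ≤ |q.cΦ| := le_abs_self _

/-- The derivatives of `Φ(l(x) + l(y)) + st`. -/
theorem G_bd (hu : 2 * d.l₀ q + 91 / 20 * q.R ≤ d.l z.1 + d.l z.2) (hs : StB q d z) {i : ℕ}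
    (hi : 1 ≤ i) (hi4 : i ≤ 4) :
    ‖iteratedFDeriv ℝ i (fun z : VV n => d.Φ (d.l z.1 + d.l z.2) + st2 q d z) z‖ ≤
      (24 * (2 * KL n q.σ) ^ 4 * |q.cΦ| + 1) * deriv d.Φ (d.l z.1 + d.l z.2) := by
  have K1 := KL_one n q.σ
  have hN : 1 ≤ deriv d.Φ (d.l z.1 + d.l z.2) := hq.M1.trans (h.N_ge _)
  have lx : ∀ j, 1 ≤ j → j ≤ 4 → ‖iteratedFDeriv ℝ j (fun z : VV n => d.l z.1) z‖ ≤ KL n q.σ := by
    intro j h1 h4
    refine (fst_jet h.lev.sm j z).trans ?_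
    rw [h.lev.lit]
    exact KL_bd hq.n1 hq.inf.σ0 hq.inf.σ1 hq.inf.R1 (Om_Bw1 hq h hz) h1 h4
  have ly : ∀ j, 1 ≤ j → j ≤ 4 → ‖iteratedFDeriv ℝ j (fun z : VV n => d.l z.2) z‖ ≤ KL n q.σ := by
    intro j h1 h4
    refine (snd_jet h.lev.sm j z).trans ?_
    rw [h.lev.lit]
    exact KL_bd hq.n1 hq.inf.σ0 hq.inf.σ1 hq.inf.R1 (Om_Bw2 hq h hz) h1 h4
  have c1 := comp_jet (h := fun z : VV n => d.l z.1 + d.l z.2) h.Φs ((lx_sm h).add (ly_sm h))
    (z := z) (M := |q.cΦ| * deriv d.Φ (d.l z.1 + d.l z.2)) (K := 2 * KL n q.σ) (by positivity)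
    (by linarith) (fun j hj => (phi_jet h hq.M1 hq.L0 _ hj).trans
      (mul_le_mul_of_nonneg_right (le_abs_self _) (by linarith)))
    (fun j h1 h4 => (it_add (lx_sm h) (ly_sm h) j z).trans (by linarith [lx j h1 h4, ly j h1 h4]))
    hi hi4
  refine (it_add (h.Φs.comp ((lx_sm h).add (ly_sm h))) (st_sm hq h) i z).trans ?_
  have c2 := (hs i hi hi4).trans (e8_le hq h hz hu)
  have c3 : ‖iteratedFDeriv ℝ i (d.Φ ∘ fun z : VV n => d.l z.1 + d.l z.2) z‖ ≤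
      24 * (2 * KL n q.σ) ^ 4 * (|q.cΦ| * deriv d.Φ (d.l z.1 + d.l z.2)) := c1
  linarith

theorem Tx_bd {i : ℕ} (hi : 1 ≤ i) (hi4 : i ≤ 4) :
    ‖iteratedFDeriv ℝ i (fun z : VV n => d.Θ (d.l z.1)) z‖ ≤
      24 * (2 * KL n q.σ) ^ 4 * |q.cΘ| * (deriv d.Θ (d.l z.1) + 1) := by
  have K1 := KL_one n q.σ
  have hT := h.Θd0 hq.inf.R0 (d.l z.1)
  have c1 := comp_jet (h := fun z : VV n => d.l z.1) h.Θs (lx_sm h)
    (z := z) (M := |q.cΘ| * (deriv d.Θ (d.l z.1) + 1)) (K := 2 * KL n q.σ) (by positivity)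
    (by linarith) (fun j hj => (the_jet h hq.inf.R1 hq.L4 hq.tL hq.ty _ hj).trans
      (mul_le_mul_of_nonneg_right (le_abs_self _) (by linarith)))
    (fun j h1 h4 => (fst_jet h.lev.sm j z).trans (by
      rw [h.lev.lit]
      linarith [KL_bd hq.n1 hq.inf.σ0 hq.inf.σ1 hq.inf.R1 (kap := d.kap) (Gs := d.Gs)
        (Om_Bw1 hq h hz) h1 h4])) hi hi4
  linarith

theorem Ty_bd {i : ℕ} (hi : 1 ≤ i) (hi4 : i ≤ 4) :
    ‖iteratedFDeriv ℝ i (fun z : VV n => d.Θ (d.l z.2)) z‖ ≤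
      24 * (2 * KL n q.σ) ^ 4 * |q.cΘ| * (deriv d.Θ (d.l z.2) + 1) := by
  have K1 := KL_one n q.σ
  have hT := h.Θd0 hq.inf.R0 (d.l z.2)
  have c1 := comp_jet (h := fun z : VV n => d.l z.2) h.Θs (ly_sm h)
    (z := z) (M := |q.cΘ| * (deriv d.Θ (d.l z.2) + 1)) (K := 2 * KL n q.σ) (by positivity)
    (by linarith) (fun j hj => (the_jet h hq.inf.R1 hq.L4 hq.tL hq.ty _ hj).trans
      (mul_le_mul_of_nonneg_right (le_abs_self _) (by linarith)))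
    (fun j h1 h4 => (snd_jet h.lev.sm j z).trans (by
      rw [h.lev.lit]
      linarith [KL_bd hq.n1 hq.inf.σ0 hq.inf.σ1 hq.inf.R1 (kap := d.kap) (Gs := d.Gs)
        (Om_Bw2 hq h hz) h1 h4])) hi hi4
  linarith

/-- The sizes of the three functions. -/
theorem gG_bd (hu : 2 * d.l₀ q + 91 / 20 * q.R ≤ d.l z.1 + d.l z.2) (hs : StB q d z) {j : ℕ}
    (hj : j ≤ 3) :
    0 ≤ gm q.R (fun z : VV n => d.Φ (d.l z.1 + d.l z.2) + st2 q d z) j z ∧
    gm q.R (fun z : VV n => d.Φ (d.l z.1 + d.l z.2) + st2 q d z) j z ≤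
      Dq n q * deriv d.Φ (d.l z.1 + d.l z.2) := by
  have hN : 1 ≤ deriv d.Φ (d.l z.1 + d.l z.2) := hq.M1.trans (h.N_ge _)
  have K1 := KL_one n q.σ
  set N := deriv d.Φ (d.l z.1 + d.l z.2) with hNd
  set A := 24 * (2 * KL n q.σ) ^ 4 with hA
  have A0 : 0 ≤ A := by positivity
  have p0 : 0 ≤ (A * |q.cΦ| + 1) * N := by positivity
  refine ⟨gm_nn hq.inf.R0 _ _ _, ?_⟩
  refine (gm_le hq.inf.R1 p0 (k := 3) (fun i hi hi4 => G_bd hq h hz hu hs hi (by omega))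
    hj).trans ?_
  have hj' : (j : ℝ) + 1 ≤ 4 := by
    have : (j : ℝ) ≤ 3 := by exact_mod_cast hj
    linarith
  have a1 : A * |q.cΦ| + 1 ≤ A * (|q.cΦ| + |q.cΘ|) + 2 := by
    have : 0 ≤ A * |q.cΘ| := by positivity
    linarith
  unfold Dq
  rw [← hA]
  calc ((j : ℝ) + 1) * ((A * |q.cΦ| + 1) * N) ≤ 4 * ((A * (|q.cΦ| + |q.cΘ|) + 2) * N) := by
        refine mul_le_mul hj' (mul_le_mul_of_nonneg_right a1 (by linarith)) p0 (by norm_num)
    _ = _ := by ring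

theorem gX_bd (hu : 2 * d.l₀ q + 91 / 20 * q.R ≤ d.l z.1 + d.l z.2) (hs : StB q d z) {j : ℕ}
    (hj : j ≤ 3) :
    0 ≤ gm q.R (fun z : VV n => (d.Φ (d.l z.1 + d.l z.2) + st2 q d z) + d.Θ (d.l z.1)) j z ∧
    gm q.R (fun z : VV n => (d.Φ (d.l z.1 + d.l z.2) + st2 q d z) + d.Θ (d.l z.1)) j z ≤
      Dq n q * (deriv d.Φ (d.l z.1 + d.l z.2) + deriv d.Θ (d.l z.1)) := by
  have hN : 1 ≤ deriv d.Φ (d.l z.1 + d.l z.2) := hq.M1.trans (h.N_ge _)
  have hT := h.Θd0 hq.inf.R0 (d.l z.1)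
  have K1 := KL_one n q.σ
  set N := deriv d.Φ (d.l z.1 + d.l z.2) with hNd
  set T := deriv d.Θ (d.l z.1) with hTd
  set A := 24 * (2 * KL n q.σ) ^ 4 with hA
  have A0 : 0 ≤ A := by positivity
  have p0 : 0 ≤ (A * (|q.cΦ| + |q.cΘ|) + 2) * (N + T) := by positivity
  refine ⟨gm_nn hq.inf.R0 _ _ _, ?_⟩
  refine (gm_le hq.inf.R1 p0 (k := 3) (fun i hi hi4 => ?_) hj).trans ?_
  · refine (it_add (G_sm hq h) (Tx_sm h) i z).trans ?_
    have g1 := G_bd hq h hz hu hs hi (i := i) (by omega)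
    have g2 := Tx_bd hq h hz hi (i := i) (by omega)
    rw [← hA] at g1 g2
    have k1 : 0 ≤ A * |q.cΦ| * T := by positivity
    have k2 : A * |q.cΘ| * (T + 1) ≤ A * |q.cΘ| * (N + T) :=
      mul_le_mul_of_nonneg_left (by linarith) (by positivity)
    linarith
  · have hj' : (j : ℝ) + 1 ≤ 4 := by
      have : (j : ℝ) ≤ 3 := by exact_mod_cast hj
      linarith
    unfold Dq
    rw [← hA]
    calc ((j : ℝ) + 1) * ((A * (|q.cΦ| + |q.cΘ|) + 2) * (N + T)) ≤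
        4 * ((A * (|q.cΦ| + |q.cΘ|) + 2) * (N + T)) := mul_le_mul_of_nonneg_right hj' p0
      _ = _ := by ring

theorem gY_bd (hu : 2 * d.l₀ q + 91 / 20 * q.R ≤ d.l z.1 + d.l z.2) (hs : StB q d z) {j : ℕ}
    (hj : j ≤ 3) :
    0 ≤ gm q.R (fun z : VV n => (d.Φ (d.l z.1 + d.l z.2) + st2 q d z) + d.Θ (d.l z.2)) j z ∧
    gm q.R (fun z : VV n => (d.Φ (d.l z.1 + d.l z.2) + st2 q d z) + d.Θ (d.l z.2)) j z ≤
      Dq n q * (deriv d.Φ (d.l z.1 + d.l z.2) + deriv d.Θ (d.l z.2)) := by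
  have hN : 1 ≤ deriv d.Φ (d.l z.1 + d.l z.2) := hq.M1.trans (h.N_ge _)
  have hT := h.Θd0 hq.inf.R0 (d.l z.2)
  have K1 := KL_one n q.σ
  set N := deriv d.Φ (d.l z.1 + d.l z.2) with hNd
  set T := deriv d.Θ (d.l z.2) with hTd
  set A := 24 * (2 * KL n q.σ) ^ 4 with hA
  have A0 : 0 ≤ A := by positivity
  have p0 : 0 ≤ (A * (|q.cΦ| + |q.cΘ|) + 2) * (N + T) := by positivity
  refine ⟨gm_nn hq.inf.R0 _ _ _, ?_⟩
  refine (gm_le hq.inf.R1 p0 (k := 3) (fun i hi hi4 => ?_) hj).trans ?_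
  · refine (it_add (G_sm hq h) (Ty_sm h) i z).trans ?_
    have g1 := G_bd hq h hz hu hs hi (i := i) (by omega)
    have g2 := Ty_bd hq h hz hi (i := i) (by omega)
    rw [← hA] at g1 g2
    have k1 : 0 ≤ A * |q.cΦ| * T := by positivity
    have k2 : A * |q.cΘ| * (T + 1) ≤ A * |q.cΘ| * (N + T) :=
      mul_le_mul_of_nonneg_left (by linarith) (by positivity)
    linarith
  · have hj' : (j : ℝ) + 1 ≤ 4 := by
      have : (j : ℝ) ≤ 3 := by exact_mod_cast hj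
      linarith
    unfold Dq
    rw [← hA]
    calc ((j : ℝ) + 1) * ((A * (|q.cΦ| + |q.cΘ|) + 2) * (N + T)) ≤
        4 * ((A * (|q.cΦ| + |q.cΘ|) + 2) * (N + T)) := mul_le_mul_of_nonneg_right hj' p0
      _ = _ := by ring

end sz

end Vale.Agent.P088.R2.H835.INF
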