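import Vale.Agent.P088.R2.H835.INF.Jet
import Vale.Agent.P088.R2.H269.INF.Ev
import Vale.Agent.P088.R2.H380.INF.Sbp
import Vale.Agent.P088.R2.H509.EP.Lit2

/-!
# P088, stage 3, leaf iH, rows H1, O1: the numbers
-/

open MeasureTheory Set Filter
open scoped ContDiff Topology

noncomputable section

namespace Vale.Agent.P088.R2.H835.INF

open Vale.Agent.P088.LR Vale.Agent.P088.HY Vale.Agent.P088.R2.H475 Vale.Agent.P088.R2.H31.EP
open Vale.Agent.P088.R2.H269.INF Vale.Agent.P088.R2.H404.INF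

variable {n : ℕ}

open Classical in
/-- The bound of the derivatives of the level. -/
def KL (n : ℕ) (σ : ℝ) : ℝ :=
  if h : 1 ≤ n ∧ 0 < σ ∧ σ ≤ 1 / 5000 then (lev_jet h.1 h.2.1 h.2.2).choose else 1

open Classical in
/-- The oscillation of the level. -/
def KN (n : ℕ) (σ : ℝ) : ℝ :=
  if h : 1 ≤ n ∧ 0 < σ ∧ σ ≤ 1 / 5000 then (H673.INF.lev_near h.1 h.2.1 h.2.2).choose else 1

/-- The constant of the slot quantities. -/
def CS (n : ℕ) : ℝ := (H380.INF.sb_pt n).choose + 1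

theorem CS_pos (n : ℕ) : 1 ≤ CS n := by
  have := (H380.INF.sb_pt n).choose_spec.1
  unfold CS
  linarith

theorem KL_one (n : ℕ) (σ : ℝ) : 1 ≤ KL n σ := by
  unfold KL
  split_ifs with h
  · exact (lev_jet h.1 h.2.1 h.2.2).choose_spec.1
  · exact le_rfl

theorem KL_bd {σ : ℝ} (hn : 1 ≤ n) (h0 : 0 < σ) (h1 : σ ≤ 1 / 5000) {R kap Gs : ℝ} (hR : 1 ≤ R)
    {x : V n} (hx : x ∈ Bw n σ R) {i : ℕ} (hi : 1 ≤ i) (hi4 : i ≤ 4) :
    ‖iteratedFDeriv ℝ i (levG n σ R kap Gs) x‖ ≤ KL n σ := by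
  have h : 1 ≤ n ∧ 0 < σ ∧ σ ≤ 1 / 5000 := ⟨hn, h0, h1⟩
  unfold KL
  rw [dif_pos h]
  exact (lev_jet h.1 h.2.1 h.2.2).choose_spec.2 R kap Gs hR x hx i hi hi4

theorem KN_bd {σ : ℝ} (hn : 1 ≤ n) (h0 : 0 < σ) (h1 : σ ≤ 1 / 5000) {R kap Gs : ℝ} (hR : 1 ≤ R)
    {x : V n} (hx : x ∈ Bw n σ R) {y : V n} (hy : ‖y - x‖ ≤ 4) :
    levG n σ R kap Gs y ≤ levG n σ R kap Gs x + KN n σ := by
  have h : 1 ≤ n ∧ 0 < σ ∧ σ ≤ 1 / 5000 := ⟨hn, h0, h1⟩
  unfold KN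
  rw [dif_pos h]
  exact (H673.INF.lev_near h.1 h.2.1 h.2.2).choose_spec.2 R kap Gs hR x hx y hy

/-- The sizes. -/
def Dq (n : ℕ) (q : Cst) : ℝ := 4 * (24 * (2 * KL n q.σ) ^ 4 * (|q.cΦ| + |q.cΘ|) + 2)

theorem Dq_one (n : ℕ) (q : Cst) : 1 ≤ Dq n q := by
  have := KL_one n q.σ
  have h1 : 0 ≤ 24 * (2 * KL n q.σ) ^ 4 * (|q.cΦ| + |q.cΘ|) := by positivity
  unfold Dq
  linarith

/-- The large number. -/
def Bg (n : ℕ) (q : Cst) : ℝ := 10 ^ 8 * (n + 1) ^ 3 * (CS n + 1) ^ 2 * Dq n q ^ 3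

theorem Bg_pos (n : ℕ) (q : Cst) : 1 ≤ Bg n q := by
  have h1 := CS_pos n
  have h2 := Dq_one n q
  have h3 : (1 : ℝ) ≤ (n + 1) ^ 3 := one_le_pow₀ (by have : (0 : ℝ) ≤ n := n.cast_nonneg; linarith)
  have h4 : (1 : ℝ) ≤ (CS n + 1) ^ 2 := one_le_pow₀ (by linarith)
  have h5 : (1 : ℝ) ≤ Dq n q ^ 3 := one_le_pow₀ h2
  unfold Bg
  calc (1 : ℝ) = 1 * 1 * 1 * 1 := by ring
    _ ≤ 10 ^ 8 * (n + 1) ^ 3 * (CS n + 1) ^ 2 * Dq n q ^ 3 := by
      gcongr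
      norm_num

/-- The conditions on the constants. -/
structure Hn (n : ℕ) (q : Cst) : Prop where
  inf : InfC q
  n1 : 1 ≤ n
  M1 : 1 ≤ q.M₀
  L0 : 0 ≤ q.L
  L4 : 1 ≤ q.L₄
  R100 : 100 ≤ q.R
  tL : q.tnL ≤ 1
  ty : q.tny ≤ 1
  ε0 : 0 ≤ q.ε
  ε1 : q.ε ≤ 1
  εn : q.ε * n ≤ 1 / 2
  ε3 : 2 * (n : ℝ) ^ 2 * q.ε ≤ 3 / 4
  mid : KN n q.σ ≤ q.R / 4
  big : Bg n q * (1 + q.R / q.σ) ^ 2 * Real.exp (8 * (q.R / q.σ)) ≤
    Real.exp (q.L * (q.R / 20 - 1))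

theorem Bg_bR (n : ℕ) (q : Cst) : Bg n q.b_R = Bg n q := rfl

theorem ev_Hn (hn : 1 ≤ n) : EvC (Hn n) := by
  have hn' : (0 : ℝ) < n := by exact_mod_cast (by omega : 0 < n)
  have h1 := ev_scT (e := fun _ => 1) (fun _ => rfl) (EvC.of fun _ => ⟨one_pos, le_rfl⟩)
  have h2 : EvC fun q => q.ε ≤ 1 / (4 * n ^ 2) :=
    EvC.at_ε (fun _ t => t ≤ 1 / (4 * n ^ 2)) fun _ => sml_le (by positivity)
  have h2' : EvC fun q => q.ε ≤ 1 :=
    EvC.at_ε (fun _ t => t ≤ 1) fun _ => sml_le one_pos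
  have h3 : EvC fun q => 40 ≤ q.C₃ :=
    EvC.at_C₃ (fun _ t => 40 ≤ t) fun _ => eventually_ge_atTop _
  have h4 : EvC fun q => KN n q.σ ≤ q.R / 4 := by
    refine EvC.at_R (fun q t => KN n q.σ ≤ t / 4) fun q => ?_
    filter_upwards [eventually_ge_atTop (4 * KN n q.σ)] with t ht
    linarith
  have h5 : EvC fun q => 0 < q.σ → Bg n q * Real.exp q.L ≤ Real.exp (10 * (q.R / q.σ)) := by
    refine EvC.at_R (fun q t => 0 < q.σ → Bg n q * Real.exp q.L ≤ Real.exp (10 * (t / q.σ)))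
      fun q => ?_
    by_cases hσ : 0 < q.σ
    · have ht : Tendsto (fun t : ℝ => Real.exp (10 * (t / q.σ))) atTop atTop :=
        Real.tendsto_exp_atTop.comp ((tendsto_id.atTop_div_const hσ).const_mul_atTop (by norm_num))
      filter_upwards [ht.eventually_ge_atTop (Bg n q * Real.exp q.L)] with t h _
      exact h
    · exact Eventually.of_forall fun _ h => absurd h hσ
  refine ((EvC.pos.and (evInf.and h1)).and ((h2.and h2').and (h3.and (h4.and h5)))).mono ?_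
  rintro q ⟨⟨⟨-, ⟨-, b2, -⟩, m1, -, c1, -, -, -⟩, hI, hT⟩, ⟨e1, e2⟩, c3, k4, k5⟩
  have L0 : 0 ≤ q.L := by unfold Cst.L; positivity
  have hR0 : 0 < q.R := hI.R0
  have hT0 : 0 ≤ q.R / q.σ := by positivity
  have tL1 : q.tnL ≤ 1 := by
    have eA : q.A₄ = Real.exp (q.L₄ * (q.R / 20)) := by
      rw [Cst.A₄, Cst.L₄]
      congr 1
      field_simp
    have tL : q.tnL = Real.exp (-(q.L₄ * (q.R / 10 - 1))) := by
      rw [Cst.tnL, eA, ← Real.exp_add]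
      congr 1
      ring
    rw [tL]
    refine Real.exp_le_one_iff.2 ?_
    have : 0 ≤ q.L₄ * (q.R / 10 - 1) :=
      mul_nonneg (by linarith [hT.L1]) (by linarith [hT.R1])
    linarith
  refine ⟨hI, hn, m1, L0, hT.L1, hT.R1, tL1, hT.ty, c1.le, e2, ?_, ?_, k4, ?_⟩
  · rw [le_div_iff₀ (by positivity)] at e1
    have n1 : (1 : ℝ) ≤ n := by exact_mod_cast hn
    have : (n : ℝ) ≤ n ^ 2 := by nlinarith
    nlinarith
  · rw [le_div_iff₀ (by positivity)] at e1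
    linarith
  · have k := k5 b2
    have hB := Bg_pos n q
    have e3 : q.L * (q.R / 20 - 1) = q.C₃ / 2 * (q.R / q.σ) + -q.L := by
      unfold Cst.L
      field_simp
      ring
    have e4 : (1 + q.R / q.σ) ^ 2 ≤ Real.exp (2 * (q.R / q.σ)) := by
      have h6 := Real.add_one_le_exp (q.R / q.σ)
      have h7 : Real.exp (2 * (q.R / q.σ)) = Real.exp (q.R / q.σ) ^ 2 := by
        rw [two_mul, Real.exp_add]; ring
      rw [h7]
      exact pow_le_pow_left₀ (by positivity) (by linarith) 2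
    have e5 : Real.exp (20 * (q.R / q.σ)) ≤ Real.exp (q.C₃ / 2 * (q.R / q.σ)) :=
      Real.exp_le_exp.2 (mul_le_mul_of_nonneg_right (by linarith) hT0)
    rw [e3, Real.exp_add, Real.exp_neg, ← div_eq_mul_inv, le_div_iff₀ (Real.exp_pos _)]
    refine le_trans ?_ e5
    have e6 : Real.exp (20 * (q.R / q.σ)) = Real.exp (10 * (q.R / q.σ)) *
        Real.exp (2 * (q.R / q.σ)) * Real.exp (8 * (q.R / q.σ)) := by
      rw [← Real.exp_add, ← Real.exp_add]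
      congr 1
      ring
    rw [e6]
    calc Bg n q * (1 + q.R / q.σ) ^ 2 * Real.exp (8 * (q.R / q.σ)) * Real.exp q.L =
        (Bg n q * Real.exp q.L) * (1 + q.R / q.σ) ^ 2 * Real.exp (8 * (q.R / q.σ)) := by ring
      _ ≤ _ := by gcongr

variable {q : Cst} {d : Pk n}

/-- **The slope at the top.** -/
theorem N_top (hq : Hn n q) (h : PkOk q d) {u : ℝ} (hu : 2 * d.l₀ q + 91 / 20 * q.R ≤ u) :
    Real.exp (q.L * (q.R / 20 - 1)) ≤ deriv d.Φ u := by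
  have e1 : d.uth q = 2 * d.l₀ q + 22 / 10 * q.R := rfl
  have e2 : d.uta q = 2 * d.l₀ q + 45 / 10 * q.R := rfl
  have e3 : d.utb q = 2 * d.l₀ q + 47 / 10 * q.R := rfl
  have hR := hq.R100
  have mono : Monotone (deriv d.Φ) := monotone_of_deriv_nonneg
    (h.Φ's.differentiable (by simp)) fun u => (h.top.k0 u).le
  refine le_trans ?_ (mono hu)
  have y3 := h.top.y3 (2 * d.l₀ q + 91 / 20 * q.R) (by rw [e2]; linarith) (by rw [e3]; linarith)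
  rw [y3]
  have h1 : 1 ≤ deriv d.Φ (d.uta q + 1) := hq.M1.trans (h.N_ge _)
  have e4 : q.L * (2 * d.l₀ q + 91 / 20 * q.R - (d.uta q + 1)) = q.L * (q.R / 20 - 1) := by
    rw [e2]; ring
  rw [e4]
  exact le_mul_of_one_le_left (Real.exp_pos _).le h1

end Vale.Agent.P088.R2.H835.INF
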