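import Vale.Agent.P088.R2.H835.INF.Loc

/-!
# P088, stage 3, leaf iH, rows H1, O1: the data `P1` at every point with `u ≥ 2 l₀ + 4.55 R`
-/

open MeasureTheory Set Filter
open scoped ContDiff Topology

noncomputable section

namespace Vale.Agent.P088.R2.H835.INF

open Vale.Agent.P088.LR Vale.Agent.P088.HY Vale.Agent.P088.R2.H475 Vale.Agent.P088.R2.H31.EP
open Vale.Agent.P088.R2.H269.INF Vale.Agent.P088.R2.H961.GW
open Vale.Agent.P088.R2.H644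
open Vale.Agent.P088.R2.H404.INF (W_ret l₀_eq)
open Vale.Agent.P088.R2.H168.INF (st2 W0 wX0 wY0 RowSt P1 Fl mt₁ mt₂ ok_x ok_y Mt)
open Vale.Agent.P088.R2.H380.INF (Bs gm gm_nn gm_le cm1 sb_pt)

variable {n : ℕ} {q : Cst} {d : Pk n}

theorem sb4_mono {E ι κ : Type*} [NormedAddCommGroup E] [NormedSpace ℝ E] [Fintype ι] [Fintype κ]
    {σ : Sl E ι} {τ : Sl E κ} {f : E → ℝ} {C : ℝ} {g g' : ℕ → ℝ} {z : E} (C0 : 0 ≤ C)
    (b : Sb4 σ τ f C g z) (h : ∀ j ≤ 3, 0 ≤ g j ∧ g j ≤ g' j) : Sb4 σ τ f C g' z := by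
  have k : ∀ j ≤ 3, C * g j ≤ C * g' j := fun j hj => mul_le_mul_of_nonneg_left (h j hj).2 C0
  have k2 : C * g 1 ^ 2 ≤ C * g' 1 ^ 2 := mul_le_mul_of_nonneg_left
    (pow_le_pow_left₀ (h 1 (by norm_num)).1 (h 1 (by norm_num)).2 2) C0
  have k0 := k 0 (by norm_num)
  have k1 := k 1 (by norm_num)
  have k2' := k 2 (by norm_num)
  have k3 := k 3 le_rfl
  exact
    { d1 := fun i => (b.d1 i).trans k0
      d1' := fun i => (b.d1' i).trans k0
      d2 := fun i j => (b.d2 i j).trans k1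
      d2' := fun i j => (b.d2' i j).trans k1
      dm := fun i j => (b.dm i j).trans k1
      L1 := b.L1.trans k1
      L1' := b.L1'.trans k1
      l1 := fun i => (b.l1 i).trans k2'
      l2 := fun i => (b.l2 i).trans k2'
      l3 := fun i => (b.l3 i).trans k2'
      l4 := fun i => (b.l4 i).trans k2'
      m1 := b.m1.trans k3
      m2 := b.m2.trans k3
      m3 := b.m3.trans k3
      m4 := b.m4.trans k3
      g2 := b.g2.trans k2
      g2' := b.g2'.trans k2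
      gm := b.gm.trans k2 }

/-- The sizes. -/
def gG (q : Cst) (d : Pk n) (z : VV n) (j : ℕ) : ℝ :=
  gm q.R (fun z : VV n => d.Φ (d.l z.1 + d.l z.2) + st2 q d z) j z

def gX (q : Cst) (d : Pk n) (z : VV n) (j : ℕ) : ℝ :=
  gm q.R (fun z : VV n => (d.Φ (d.l z.1 + d.l z.2) + st2 q d z) + d.Θ (d.l z.1)) j z

def gY (q : Cst) (d : Pk n) (z : VV n) (j : ℕ) : ℝ :=
  gm q.R (fun z : VV n => (d.Φ (d.l z.1 + d.l z.2) + st2 q d z) + d.Θ (d.l z.2)) j z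

/-- The weight near a point. -/
def Wf (q : Cst) (d : Pk n) (z : VV n) : ℝ :=
  (d.Φ (d.l z.1 + d.l z.2) + st2 q d z) + d.Θ (d.l z.1) + d.Θ (d.l z.2)

/-- The slots of the package. -/
theorem sb_f (hq : Hn n q) (h : PkOk q d) {f : VV n → ℝ} (hf : ContDiff ℝ ∞ f) (z : VV n) :
    Sb4 (slx (fun _ => (1 : ℝ)) d.s₁) (sly (fun _ => (1 : ℝ)) d.s₂) f (CS n)
      (fun j => gm q.R f j z) z := by
  have h1 := (sb_pt n).choose_spec.2 q.R d.s₁ d.s₂ f (bs_of h hq.inf.R1 hq.ε1 hf) z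
  refine h1.1.mono (fun j => gm_nn hq.inf.R0 _ _ _) ?_
  unfold CS
  linarith

/-! ### Numbers -/

/-- The basic number. -/
def Xn (n : ℕ) (q : Cst) : ℝ := (n + 1) ^ 3 * (CS n + 1) ^ 2 * Dq n q ^ 3

theorem Xn_facts (n : ℕ) (q : Cst) : 1 ≤ Xn n q ∧ (n : ℝ) * CS n ≤ Xn n q ∧
    (n : ℝ) ^ 3 * CS n ^ 2 * Dq n q ^ 3 ≤ Xn n q ∧ CS n * Dq n q ^ 2 ≤ Xn n q ∧
    CS n * Dq n q ≤ Xn n q ∧ Bg n q = 10 ^ 8 * Xn n q := by
  have h1 := CS_pos n
  have h2 := Dq_one n q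
  have n0 : (0 : ℝ) ≤ n := n.cast_nonneg
  set C := CS n
  set D := Dq n q
  have a1 : (1 : ℝ) ≤ (n + 1) ^ 3 := one_le_pow₀ (by linarith)
  have a2 : (n : ℝ) + 1 ≤ (n + 1) ^ 3 := le_self_pow₀ (by linarith) (by norm_num)
  have a3 : (n : ℝ) ^ 3 ≤ (n + 1) ^ 3 := pow_le_pow_left₀ n0 (by linarith) 3
  have b1 : 1 ≤ (C + 1) ^ 2 := one_le_pow₀ (by linarith)
  have b2 : C ≤ (C + 1) ^ 2 := by nlinarith
  have b3 : C ^ 2 ≤ (C + 1) ^ 2 := pow_le_pow_left₀ (by linarith) (by linarith) 2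
  have c1 : 1 ≤ D ^ 3 := one_le_pow₀ h2
  have c2 : D ^ 2 ≤ D ^ 3 := pow_le_pow_right₀ h2 (by norm_num)
  have c3 : D ≤ D ^ 3 := le_self_pow₀ h2 (by norm_num)
  have C0 : 0 ≤ C := by linarith
  have D0 : 0 ≤ D := by linarith
  have key : ∀ x y z : ℝ, 0 ≤ x → 0 ≤ y → 0 ≤ z → x ≤ (n + 1) ^ 3 → y ≤ (C + 1) ^ 2 → z ≤ D ^ 3 →
      x * y * z ≤ Xn n q := fun x y z hx hy hz k1 k2 k3 =>
    mul_le_mul (mul_le_mul k1 k2 hy (by positivity)) k3 hz (by positivity)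
  refine ⟨?_, ?_, ?_, ?_, ?_, ?_⟩
  · have := key 1 1 1 zero_le_one zero_le_one zero_le_one a1 b1 c1
    linarith
  · have := key n C 1 n0 C0 zero_le_one (by linarith) b2 c1
    linarith
  · have := key (n ^ 3) (C ^ 2) (D ^ 3) (by positivity) (by positivity) (by positivity) a3 b3 le_rfl
    linarith
  · have := key 1 C (D ^ 2) zero_le_one C0 (by positivity) a1 b2 c2
    linarith
  · have := key 1 C D zero_le_one C0 D0 a1 b2 c3
    linarith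
  · unfold Bg Xn
    ring

/-- **The slope is large.** -/
theorem N_big (hq : Hn n q) (h : PkOk q d) {u : ℝ} (hu : 2 * d.l₀ q + 91 / 20 * q.R ≤ u) :
    10 ^ 8 * Xn n q * (1 + q.R / q.σ) ^ 2 * Real.exp (8 * (q.R / q.σ)) ≤ deriv d.Φ u := by
  have h1 := N_top hq h hu
  have h2 := hq.big
  rw [(Xn_facts n q).2.2.2.2.2] at h2
  exact h2.trans h1

theorem T_pos (hq : Hn n q) : 1 ≤ q.R / q.σ := by
  rw [le_div_iff₀ hq.inf.σ0]
  linarith [hq.inf.R1, hq.inf.σ1]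

/-- The error constant of `P1.pt`. -/
def Ce (n : ℕ) (q : Cst) : ℝ :=
  (256 * n ^ 3 * CS n ^ 2 * Dq n q * (q.R / q.σ) + 20 * CS n) * Dq n q ^ 2

theorem Ce_le (hq : Hn n q) : Ce n q ≤ 256 * Xn n q * (1 + q.R / q.σ) := by
  obtain ⟨x1, x2, x3, x4, x5, -⟩ := Xn_facts n q
  have hT := T_pos hq
  have e : Ce n q = 256 * (n ^ 3 * CS n ^ 2 * Dq n q ^ 3) * (q.R / q.σ) +
      20 * (CS n * Dq n q ^ 2) := by unfold Ce; ring
  have k1 : (n : ℝ) ^ 3 * CS n ^ 2 * Dq n q ^ 3 * (q.R / q.σ) ≤ Xn n q * (q.R / q.σ) :=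
    mul_le_mul_of_nonneg_right x3 (by linarith)
  rw [e]
  linarith

theorem Ce_nn (n : ℕ) {q : Cst} (hq : Hn n q) : 0 ≤ Ce n q := by
  have h1 := CS_pos n
  have h2 := Dq_one n q
  have hT := T_pos hq
  unfold Ce
  positivity

section pt

variable (hq : Hn n q) (h : PkOk q d) {z : VV n} (hz : z ∈ Om q d)
  (hu : 2 * d.l₀ q + 91 / 20 * q.R ≤ d.l z.1 + d.l z.2) (hs : StB q d z)

include hq h

theorem m₁ : Mt q.ε q.R d.s₁ := mt₁ le_rfl hq.inf.R0 h.rg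

theorem m₂ : Mt q.ε q.R d.s₂ := mt₂ le_rfl hq.inf.R0 h.rg

theorem okx' : (slx (fun _ => (1 : ℝ)) d.s₁).Ok univ 1 := ok_x (m₁ hq h) (m₂ hq h)

theorem oky' : (sly (fun _ => (1 : ℝ)) d.s₂).Ok univ 1 := ok_y (m₁ hq h) (m₂ hq h)

theorem Wf_sm : ContDiff ℝ ∞ (Wf q d) := ((G_sm hq h).add (Tx_sm h)).add (Ty_sm h)

include hz hu hs

/-- The sizes of the slot quantities. -/
theorem sb5_f : Sb5 (slx (fun _ => (1 : ℝ)) d.s₁) (sly (fun _ => (1 : ℝ)) d.s₂) (Wf q d) (CS n)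
    (gG q d z) (gX q d z) (gY q d z) z := by
  have bs := bs_of h hq.inf.R1 hq.ε1 (Wf_sm hq h)
  have dl : Differentiable ℝ fun x => d.Θ (d.l x) :=
    (h.Θs.comp h.lev.sm).differentiable (by simp)
  exact sb5_pw (okx' hq h) (oky' hq h) (cm1 bs.c1 bs.c2 bs.y1 bs.y2) (G_sm hq h).contDiffOn
    (Tx_sm h).contDiffOn (Ty_sm h).contDiffOn
    (fun w _ k => Dy_fst (g := fun x => d.Θ (d.l x)) (dl _) k)
    (fun w _ k => Dx_snd (g := fun x => d.Θ (d.l x)) (dl _) k) (mem_univ z)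
    (sb_f hq h (G_sm hq h) z) (sb_f hq h ((G_sm hq h).add (Tx_sm h)) z)
    (sb_f hq h ((G_sm hq h).add (Ty_sm h)) z)

/-- **The data of one point.** -/
theorem p1_of : P1 n d.s₁ d.s₂ q.σ q.R d.kap d.Gs q.ε d.Φ (deriv d.Φ) (deriv (deriv d.Φ)) d.Θ
    (deriv d.Θ) (deriv (deriv d.Θ)) (st2 q d) (CS n) (Dq n q) (4 * Real.exp (8 * (q.R / q.σ)))
    (gG q d z) (gX q d z) (gY q d z) z := by
  have hR0 := hq.inf.R0
  have hσ := hq.inf.σ0
  have hΦ1 : ∀ t, HasDerivAt d.Φ (deriv d.Φ t) t := fun t =>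
    (h.Φs.differentiable (by simp) t).hasDerivAt
  have hΦ2 : ∀ t, HasDerivAt (deriv d.Φ) (deriv (deriv d.Φ) t) t := fun t =>
    (h.Φ's.differentiable (by simp) t).hasDerivAt
  have sΘ' : ContDiff ℝ ∞ (deriv d.Θ) := (contDiff_infty_iff_deriv.1 h.Θs).2
  have hΘ1 : ∀ t, HasDerivAt d.Θ (deriv d.Θ t) t := fun t =>
    (h.Θs.differentiable (by simp) t).hasDerivAt
  have hΘ2 : ∀ t, HasDerivAt (deriv d.Θ) (deriv (deriv d.Θ) t) t := fun t =>
    (sΘ'.differentiable (by simp) t).hasDerivAt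
  have hC := CS_pos n
  have hD := Dq_one n q
  have hT := T_pos hq
  have b5 := sb5_f hq h hz hu hs
  have e8 : 0 < Real.exp (8 * (q.R / q.σ)) := Real.exp_pos _
  have lit := h.lev.lit
  obtain ⟨x1, x2, -, -, -, -⟩ := Xn_facts n q
  refine
    { hn := hq.n1
      h0 := hσ
      h1 := hq.inf.σ1
      hR := hR0
      m₁ := m₁ hq h
      m₂ := m₂ hq h
      z₁ := ?_
      z₂ := ?_
      cΦ := Ch.Cp.of ?_ h.Φs h.Φ's hΦ1 hΦ2
      cx := Ch.Cp.of ?_ h.Θs sΘ' hΘ1 hΘ2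
      cy := Ch.Cp.of ?_ h.Θs sΘ' hΘ1 hΘ2
      sf := st_sm hq h
      C0 := by linarith
      D1 := hD
      bf := ?_
      b0 := by positivity
      bW := ?_
      N1 := hq.M1.trans (h.N_ge _)
      K0 := (h.top.k0 _).le
      tx := h.Θd0 hR0 _
      ty := h.Θd0 hR0 _
      tx2 := h.Θcv hR0 _
      ty2 := h.Θcv hR0 _
      bg := ?_
      bx := ?_
      bY := ?_
      bb := ?_ }
  · have := hz.1.1
    rw [lit, l₀_eq] at this
    show lam0 q.R d.kap d.Gs + 21 / 20 * q.R < levG n q.σ q.R d.kap d.Gs z.1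
    linarith
  · have := hz.2.1
    rw [lit, l₀_eq] at this
    show lam0 q.R d.kap d.Gs + 21 / 20 * q.R < levG n q.σ q.R d.kap d.Gs z.2
    linarith
  · rw [← lit]; exact ((lx_sm h).add (ly_sm h)).contDiffOn
  · rw [← lit]; exact (lx_sm h).contDiffOn
  · rw [← lit]; exact (ly_sm h).contDiffOn
  · refine sb4_mono (by linarith) (sb_f hq h (st_sm hq h) z) fun j hj => ⟨gm_nn hR0 _ _ _, ?_⟩
    refine (gm_le hq.inf.R1 e8.le (k := 3) (fun i h1 h4 => hs i h1 (by omega)) hj).trans ?_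
    have hj' : (j : ℝ) + 1 ≤ 4 := by
      have : (j : ℝ) ≤ 3 := by exact_mod_cast hj
      linarith
    exact mul_le_mul_of_nonneg_right hj' e8.le
  · rw [← lit]; exact b5
  · intro j hj
    rw [← lit]
    exact gG_bd hq h hz hu hs hj
  · intro j hj
    rw [← lit]
    exact gX_bd hq h hz hu hs hj
  · intro j hj
    rw [← lit]
    exact gY_bd hq h hz hu hs hj
  · rw [← lit]
    have k1 := N_big hq h hu
    set T := q.R / q.σ with hTd
    have eβ : q.σ / q.R = 1 / T := by rw [hTd, one_div_div]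
    rw [eβ, one_div, ← div_eq_inv_mul, le_div_iff₀ (by linarith)]
    refine le_trans ?_ k1
    have e : 16 * (n : ℝ) * CS n * (4 * Real.exp (8 * T)) * T =
        64 * (n * CS n) * T * Real.exp (8 * T) := by ring
    rw [e]
    refine mul_le_mul_of_nonneg_right ?_ e8.le
    have h2 : T ≤ (1 + T) ^ 2 := by nlinarith
    calc 64 * (n * CS n) * T ≤ 64 * Xn n q * (1 + T) ^ 2 := by gcongr
      _ ≤ 10 ^ 8 * Xn n q * (1 + T) ^ 2 := by gcongr; norm_num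

end pt

end Vale.Agent.P088.R2.H835.INF
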